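import Mathlib

/-! Smooth bump functions with explicit derivatives. -/

namespace Vale.Agent.P113

open Set Filter Polynomial
open scoped ContDiff Topology

/-- Unsigned coefficients of the derivatives of `exp (-1/x)`. -/
def lah : ℕ → ℕ → ℕ
  | 0, 0 => 1
  | 0, _ + 1 => 0
  | k + 1, 0 => k * lah k 0
  | k + 1, j + 1 => lah k j + (k + j + 1) * lah k (j + 1)

lemma lah_eq_zero : ∀ k j, k < j → lah k j = 0
  | 0, 0, h => by omega
  | 0, _ + 1, _ => rfl
  | k + 1, 0, h => by omega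
  | k + 1, j + 1, h => by
    rw [lah, lah_eq_zero k j (by omega), lah_eq_zero k (j + 1) (by omega)]
    simp

/-- The polynomials in `1/x` in the derivatives of `exp (-1/x)`. -/
noncomputable def P (k : ℕ) : ℝ[X] :=
  ∑ j ∈ Finset.range (k + 1), C ((-1 : ℝ) ^ (k + j) * (lah k j : ℝ)) * X ^ (k + j)

lemma P_zero : P 0 = 1 := by
  simp [P, lah]

lemma P_eq (k : ℕ) : P k =
    ∑ j ∈ Finset.range (k + 2), C ((-1 : ℝ) ^ (k + j) * (lah k j : ℝ)) * X ^ (k + j) := by
  rw [Finset.sum_range_succ, lah_eq_zero k (k + 1) (by omega)]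
  simp [P]

lemma P_succ (k : ℕ) : P (k + 1) = X ^ 2 * (P k - derivative (P k)) := by
  have h1 : X ^ 2 * P k = ∑ j ∈ Finset.range (k + 1),
      C ((-1 : ℝ) ^ (k + j) * (lah k j : ℝ)) * X ^ (k + j + 2) := by
    rw [P, Finset.mul_sum]
    refine Finset.sum_congr rfl (fun j _ => ?_)
    ring
  have h2 : X ^ 2 * derivative (P k) = ∑ j ∈ Finset.range (k + 2),
      C ((-1 : ℝ) ^ (k + j) * ((k + j : ℕ) : ℝ) * (lah k j : ℝ)) * X ^ (k + j + 1) := by
    rw [P_eq, derivative_sum, Finset.mul_sum]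
    refine Finset.sum_congr rfl (fun j _ => ?_)
    rw [derivative_C_mul_X_pow]
    rcases Nat.eq_zero_or_pos (k + j) with h | h
    · rw [h]; simp
    · obtain ⟨m, hm⟩ : ∃ m, k + j = m + 1 := ⟨k + j - 1, by omega⟩
      rw [hm]
      simp only [Nat.add_sub_cancel, map_mul]
      ring
  rw [mul_sub, h1, h2, P, Finset.sum_range_succ']
  rw [Finset.sum_range_succ' _ (k + 1), ← sub_sub, ← Finset.sum_sub_distrib]
  have h3 : ∀ j ∈ Finset.range (k + 1),
      C ((-1 : ℝ) ^ (k + 1 + (j + 1)) * (lah (k + 1) (j + 1) : ℝ)) * X ^ (k + 1 + (j + 1)) =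
      (C ((-1 : ℝ) ^ (k + j) * (lah k j : ℝ)) * X ^ (k + j + 2) -
      C ((-1 : ℝ) ^ (k + (j + 1)) * ((k + (j + 1) : ℕ) : ℝ) * (lah k (j + 1) : ℝ))
        * X ^ (k + (j + 1) + 1)) := by
    intro j _
    rw [show k + 1 + (j + 1) = k + j + 2 by ring, show k + (j + 1) + 1 = k + j + 2 by ring,
      ← sub_mul, ← C_sub]
    congr 2
    rw [lah]
    push_cast
    ring
  rw [Finset.sum_congr rfl h3, sub_eq_add_neg]
  congr 1
  rw [← neg_mul, ← C_neg]
  congr 2
  rw [lah]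
  push_cast
  ring

/-- derivatives of `expNegInvGlue` -/
noncomputable def θ (k : ℕ) (x : ℝ) : ℝ := (P k).eval x⁻¹ * expNegInvGlue x

lemma θ_zero (x : ℝ) : θ 0 x = expNegInvGlue x := by simp [θ, P_zero]

lemma hasDerivAt_θ (k : ℕ) (x : ℝ) : HasDerivAt (θ k) (θ (k + 1) x) x := by
  have := expNegInvGlue.hasDerivAt_polynomial_eval_inv_mul (P k) x
  rw [← P_succ] at this
  exact this

lemma θ_of_nonpos (k : ℕ) {x : ℝ} (hx : x ≤ 0) : θ k x = 0 := by
  simp [θ, expNegInvGlue.zero_of_nonpos hx]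

lemma θ_of_pos (k : ℕ) {x : ℝ} (hx : 0 < x) : θ k x =
    (∑ j ∈ Finset.range (k + 1), (-1 : ℝ) ^ (k + j) * (lah k j : ℝ) * (x⁻¹) ^ (k + j))
      * Real.exp (-x⁻¹) := by
  unfold θ P
  rw [eval_finsetSum]
  congr 1
  · refine Finset.sum_congr rfl (fun j _ => ?_)
    rw [eval_mul, eval_C, eval_pow, eval_X]
  · simp [expNegInvGlue, hx]

/-! ### towers of derivatives -/

lemma tower_iteratedDeriv {F : ℕ → ℝ → ℝ} (h : ∀ k y, HasDerivAt (F k) (F (k + 1) y) y) :
    ∀ k, iteratedDeriv k (F 0) = F k := by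
  intro k
  induction k with
  | zero => exact iteratedDeriv_zero
  | succ k ih =>
    rw [iteratedDeriv_succ, ih]
    funext y
    exact (h k y).deriv

lemma tower_contDiff {F : ℕ → ℝ → ℝ} (h : ∀ k y, HasDerivAt (F k) (F (k + 1) y) y) (k : ℕ) :
    ContDiff ℝ ∞ (F k) := by
  have h' : ∀ m y, HasDerivAt ((fun m => F (k + m)) m) ((fun m => F (k + m)) (m + 1) y) y :=
    fun m y => h (k + m) y
  have : ContDiff ℝ ∞ ((fun m => F (k + m)) 0) := by
    apply contDiff_of_differentiable_iteratedDeriv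
    intro m _
    rw [tower_iteratedDeriv h' m]
    exact fun y => (h' m y).differentiableAt
  simpa using this

lemma contDiff_θ (k : ℕ) : ContDiff ℝ ∞ (θ k) := tower_contDiff hasDerivAt_θ k

/-! ### two-sided bumps -/

/-- the `k`-th derivative of `y ↦ θ (y - l) * θ (r - y)` -/
noncomputable def phi (k : ℕ) (l r y : ℝ) : ℝ :=
  ∑ j ∈ Finset.range (k + 1), (k.choose j : ℝ) * θ j (y - l) * ((-1) ^ (k - j) * θ (k - j) (r - y))

lemma iteratedDeriv_phi (k : ℕ) (l r : ℝ) :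
    iteratedDeriv k (fun y => expNegInvGlue (y - l) * expNegInvGlue (r - y)) =
      fun y => phi k l r y := by
  funext y
  have hc : ContDiff ℝ ∞ expNegInvGlue := by
    have := contDiff_θ 0
    have h2 : θ 0 = expNegInvGlue := funext θ_zero
    rwa [h2] at this
  have h1 : ContDiff ℝ ∞ (fun y : ℝ => expNegInvGlue (y - l)) := hc.comp (by fun_prop)
  have h2 : ContDiff ℝ ∞ (fun y : ℝ => expNegInvGlue (r - y)) := hc.comp (by fun_prop)
  have h3 := iteratedDeriv_mul (n := k) (x := y) (f := fun y : ℝ => expNegInvGlue (y - l))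
    (g := fun y : ℝ => expNegInvGlue (r - y))
    (h1.contDiffAt.of_le (by exact_mod_cast le_top)) (h2.contDiffAt.of_le (by exact_mod_cast le_top))
  have h4 : (fun y => expNegInvGlue (y - l) * expNegInvGlue (r - y)) =
    (fun y : ℝ => expNegInvGlue (y - l)) * (fun y : ℝ => expNegInvGlue (r - y)) := rfl
  rw [h4, h3]
  have h5 : ∀ j, iteratedDeriv j expNegInvGlue = θ j := by
    intro j
    have := tower_iteratedDeriv hasDerivAt_θ j
    have h2 : θ 0 = expNegInvGlue := funext θ_zero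
    rwa [h2] at this
  unfold phi
  refine Finset.sum_congr rfl (fun j _ => ?_)
  rw [iteratedDeriv_comp_sub_const, iteratedDeriv_comp_const_sub]
  simp [h5]

lemma hasDerivAt_phi (k : ℕ) (l r y : ℝ) :
    HasDerivAt (fun y => phi k l r y) (phi (k + 1) l r y) y := by
  have hc : ContDiff ℝ ∞ expNegInvGlue := by
    have := contDiff_θ 0
    have h2 : θ 0 = expNegInvGlue := funext θ_zero
    rwa [h2] at this
  have h1 : ContDiff ℝ ∞ (fun y : ℝ => expNegInvGlue (y - l)) := hc.comp (by fun_prop)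
  have h2 : ContDiff ℝ ∞ (fun y : ℝ => expNegInvGlue (r - y)) := hc.comp (by fun_prop)
  have h3 : ContDiff ℝ ∞ (fun y => expNegInvGlue (y - l) * expNegInvGlue (r - y)) := h1.mul h2
  have h4 : Differentiable ℝ
      (iteratedDeriv k (fun y => expNegInvGlue (y - l) * expNegInvGlue (r - y))) :=
    h3.differentiable_iteratedDeriv k (by exact_mod_cast WithTop.coe_lt_top k)
  have h5 := (h4 y).hasDerivAt
  rw [← iteratedDeriv_succ, iteratedDeriv_phi (k + 1)] at h5
  rw [iteratedDeriv_phi k] at h5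
  exact h5

lemma phi_of_le_left (k : ℕ) {l r y : ℝ} (h : y ≤ l) : phi k l r y = 0 := by
  unfold phi
  refine Finset.sum_eq_zero (fun j _ => ?_)
  rw [θ_of_nonpos j (by linarith)]
  ring

lemma phi_of_ge_right (k : ℕ) {l r y : ℝ} (h : r ≤ y) : phi k l r y = 0 := by
  unfold phi
  refine Finset.sum_eq_zero (fun j _ => ?_)
  rw [θ_of_nonpos (k - j) (by linarith : r - y ≤ 0)]
  ring

lemma phi_zero (l r y : ℝ) : phi 0 l r y = expNegInvGlue (y - l) * expNegInvGlue (r - y) := by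
  simp [phi, θ_zero]

lemma phi_zero_pos {l r y : ℝ} (h1 : l < y) (h2 : y < r) : 0 < phi 0 l r y := by
  rw [phi_zero]
  exact mul_pos (expNegInvGlue.pos_of_pos (by linarith)) (expNegInvGlue.pos_of_pos (by linarith))

lemma phi_zero_nonneg (l r y : ℝ) : 0 ≤ phi 0 l r y := by
  rw [phi_zero]
  exact mul_nonneg (expNegInvGlue.nonneg _) (expNegInvGlue.nonneg _)

/-- uniform bound of the derivatives on the unit interval -/
lemma exists_phi_bound (k : ℕ) : ∃ C : ℝ, 0 ≤ C ∧ ∀ l r y : ℝ, 0 ≤ l → l ≤ 1 → 0 ≤ r → r ≤ 1 →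
    0 ≤ y → y ≤ 1 → |phi k l r y| ≤ C := by
  have h1 : ∀ j : ℕ, ∃ K : ℝ, ∀ x ∈ Icc (-1:ℝ) 1, ‖θ j x‖ ≤ K := fun j =>
    isCompact_Icc.exists_bound_of_continuousOn (contDiff_θ j).continuous.continuousOn
  choose K hK using h1
  refine ⟨∑ j ∈ Finset.range (k + 1), (k.choose j : ℝ) * |K j| * |K (k - j)|,
    Finset.sum_nonneg (fun j _ => by positivity), ?_⟩
  intro l r y hl0 hl1 hr0 hr1 hy0 hy1
  unfold phi
  refine (Finset.abs_sum_le_sum_abs _ _).trans (Finset.sum_le_sum (fun j _ => ?_))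
  rw [abs_mul, abs_mul, abs_mul, abs_pow, abs_neg, abs_one, one_pow, one_mul, Nat.abs_cast]
  have e1 : |θ j (y - l)| ≤ |K j| :=
    (hK j (y - l) ⟨by linarith, by linarith⟩).trans (le_abs_self _)
  have e2 : |θ (k - j) (r - y)| ≤ |K (k - j)| :=
    (hK (k - j) (r - y) ⟨by linarith, by linarith⟩).trans (le_abs_self _)
  exact mul_le_mul (mul_le_mul_of_nonneg_left e1 (by positivity)) e2 (abs_nonneg _)
    (by positivity)

/-! ### periodic extension -/

/-- the function with period one which agrees with `φ` on `[0, 1)` -/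
noncomputable def Pe (φ : ℝ → ℝ) (y : ℝ) : ℝ := φ (Int.fract y)

lemma Pe_add_one (φ : ℝ → ℝ) (y : ℝ) : Pe φ (y + 1) = Pe φ y := by
  simp [Pe]

lemma Pe_add_int (φ : ℝ → ℝ) (y : ℝ) (m : ℤ) : Pe φ (y + m) = Pe φ y := by
  simp [Pe]

lemma Pe_eq_of_mem {φ : ℝ → ℝ} (h0 : ∀ y ≤ 0, φ y = 0) (h1 : ∀ y, 1 ≤ y → φ y = 0)
    {m : ℤ} {y : ℝ} (hy : y ∈ Ioo ((m : ℝ) - 1) (m + 1)) :
    Pe φ y = φ (y - m) + φ (y - m + 1) := by
  rcases le_or_gt (m : ℝ) y with h | h
  · have hf : ⌊y⌋ = m := by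
      rw [Int.floor_eq_iff]; exact ⟨h, hy.2⟩
    have : Int.fract y = y - m := by rw [Int.fract, hf]
    rw [Pe, this, h1 (y - m + 1) (by linarith), add_zero]
  · have hf : ⌊y⌋ = m - 1 := by
      rw [Int.floor_eq_iff]; push_cast; exact ⟨hy.1.le, by linarith⟩
    have : Int.fract y = y - m + 1 := by rw [Int.fract, hf]; push_cast; ring
    rw [Pe, this, h0 (y - m) (by linarith), zero_add]

lemma hasDerivAt_Pe {φ φ' : ℝ → ℝ} (h0 : ∀ y ≤ 0, φ y = 0) (h1 : ∀ y, 1 ≤ y → φ y = 0)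
    (h0' : ∀ y ≤ 0, φ' y = 0) (h1' : ∀ y, 1 ≤ y → φ' y = 0)
    (hd : ∀ y, HasDerivAt φ (φ' y) y) (y : ℝ) : HasDerivAt (Pe φ) (Pe φ' y) y := by
  set m : ℤ := ⌊y⌋ with hm
  have hy : y ∈ Ioo ((m : ℝ) - 1) (m + 1) := by
    constructor
    · have := Int.floor_le y; rw [← hm] at this; linarith
    · exact Int.lt_floor_add_one y
  rw [Pe_eq_of_mem h0' h1' hy]
  have hev : (fun z => φ (z - m) + φ (z - m + 1)) =ᶠ[𝓝 y] Pe φ := by
    filter_upwards [Ioo_mem_nhds hy.1 hy.2] with z hz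
    rw [Pe_eq_of_mem h0 h1 hz]
  refine HasDerivAt.congr_of_eventuallyEq ?_ hev.symm
  have e1 : HasDerivAt (fun z : ℝ => φ (z - m)) (φ' (y - m)) y := by
    exact (hd (y - m)).comp_sub_const y (m : ℝ)
  have e2 : HasDerivAt (fun z : ℝ => φ (z - m + 1)) (φ' (y - m + 1)) y := by
    have h3 : HasDerivAt (fun z : ℝ => φ (z + 1)) (φ' (y - m + 1)) (y - m) :=
      (hd (y - m + 1)).comp_add_const (y - m) 1
    exact h3.comp_sub_const y (m : ℝ)
  exact e1.add e2

lemma hasDerivAt_Pe_phi (k : ℕ) {l r : ℝ} (hl : 0 ≤ l) (hr : r ≤ 1) (y : ℝ) :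
    HasDerivAt (Pe (phi k l r)) (Pe (phi (k + 1) l r) y) y :=
  hasDerivAt_Pe (fun y hy => phi_of_le_left k (by linarith))
    (fun y hy => phi_of_ge_right k (by linarith))
    (fun y hy => phi_of_le_left (k + 1) (by linarith))
    (fun y hy => phi_of_ge_right (k + 1) (by linarith)) (fun y => hasDerivAt_phi k l r y) y

end Vale.Agent.P113
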