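import Vale.Agent.P113.Old
import Vale.Agent.P113.Bump

/-! Computable families of real numbers. -/

namespace Vale.Agent.P113

open Set Filter

section basic

variable {α β : Type*} [Primcodable α] [Primcodable β]

lemma c_add {f g : α → ℕ} (hf : Computable f) (hg : Computable g) :
    Computable (fun a => f a + g a) := Primrec.nat_add.to_comp.comp hf hg

lemma c_mul {f g : α → ℕ} (hf : Computable f) (hg : Computable g) :
    Computable (fun a => f a * g a) := Primrec.nat_mul.to_comp.comp hf hg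

lemma c_sub {f g : α → ℕ} (hf : Computable f) (hg : Computable g) :
    Computable (fun a => f a - g a) := Primrec.nat_sub.to_comp.comp hf hg

lemma c_mod {f g : α → ℕ} (hf : Computable f) (hg : Computable g) :
    Computable (fun a => f a % g a) := Primrec.nat_mod.to_comp.comp hf hg

lemma c_pow {f g : α → ℕ} (hf : Computable f) (hg : Computable g) :
    Computable (fun a => f a ^ g a) := by
  have h : Primrec₂ (fun a b : ℕ => a ^ b) := Primrec₂.unpaired'.1 Nat.Primrec.pow
  exact h.to_comp.comp hf hg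

lemma c_const {σ : Type*} [Primcodable σ] (n : σ) : Computable (fun _ : α => n) :=
  Computable.const n

lemma c_le {f g : α → ℕ} (hf : Computable f) (hg : Computable g) :
    Computable (fun a => decide (f a ≤ g a)) := by
  have h : Primrec₂ (fun a b : ℕ => decide (a ≤ b)) := by
    have := Primrec.nat_le
    exact primrecRel_iff_primrec_decide.1 this
  exact h.to_comp.comp hf hg

lemma c_lt {f g : α → ℕ} (hf : Computable f) (hg : Computable g) :
    Computable (fun a => decide (f a < g a)) := by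
  have h : Primrec₂ (fun a b : ℕ => decide (a < b)) := by
    have := Primrec.nat_lt
    exact primrecRel_iff_primrec_decide.1 this
  exact h.to_comp.comp hf hg

lemma c_eq {f g : α → ℕ} (hf : Computable f) (hg : Computable g) :
    Computable (fun a => decide (f a = g a)) := by
  have h : Primrec₂ (fun a b : ℕ => decide (a = b)) := by
    have := @Primrec.eq ℕ _
    exact primrecRel_iff_primrec_decide.1 this
  exact h.to_comp.comp hf hg

lemma c_ite {c : α → Bool} {f g : α → β} (hc : Computable c) (hf : Computable f)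
    (hg : Computable g) : Computable (fun a => if c a = true then f a else g a) := by
  refine (Computable.cond hc hf hg).of_eq (fun a => ?_)
  cases c a <;> rfl

/-- addition of rational triples -/
def radd (x y : ℕ × ℕ × ℕ) : ℕ × ℕ × ℕ :=
  (x.1 * (y.2.2 + 1) + y.1 * (x.2.2 + 1), x.2.1 * (y.2.2 + 1) + y.2.1 * (x.2.2 + 1),
    x.2.2 * y.2.2 + x.2.2 + y.2.2)

/-- multiplication of rational triples -/
def rmul (x y : ℕ × ℕ × ℕ) : ℕ × ℕ × ℕ :=
  (x.1 * y.1 + x.2.1 * y.2.1, x.1 * y.2.1 + x.2.1 * y.1,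
    x.2.2 * y.2.2 + x.2.2 + y.2.2)

/-- negation of rational triples -/
def rneg (x : ℕ × ℕ × ℕ) : ℕ × ℕ × ℕ := (x.2.1, x.1, x.2.2)

lemma rat_radd (x y : ℕ × ℕ × ℕ) : rat (radd x y) = rat x + rat y := by
  unfold rat radd
  have h1 : (x.2.2 : ℝ) + 1 ≠ 0 := by positivity
  have h2 : (y.2.2 : ℝ) + 1 ≠ 0 := by positivity
  have h3 : ((x.2.2 * y.2.2 + x.2.2 + y.2.2 : ℕ) : ℝ) + 1 = (x.2.2 + 1) * (y.2.2 + 1) := by
    push_cast; ring
  simp only
  rw [h3]
  field_simp
  push_cast
  ring

lemma rat_rmul (x y : ℕ × ℕ × ℕ) : rat (rmul x y) = rat x * rat y := by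
  unfold rat rmul
  have h1 : (x.2.2 : ℝ) + 1 ≠ 0 := by positivity
  have h2 : (y.2.2 : ℝ) + 1 ≠ 0 := by positivity
  have h3 : ((x.2.2 * y.2.2 + x.2.2 + y.2.2 : ℕ) : ℝ) + 1 = (x.2.2 + 1) * (y.2.2 + 1) := by
    push_cast; ring
  simp only
  rw [h3]
  field_simp
  push_cast
  ring

lemma rat_rneg (x : ℕ × ℕ × ℕ) : rat (rneg x) = - rat x := by
  unfold rat rneg
  simp only
  ring

lemma abs_rat_le (x : ℕ × ℕ × ℕ) : |rat x| ≤ x.1 + x.2.1 := by
  unfold rat
  rw [abs_div, abs_of_pos (by positivity : (0:ℝ) < x.2.2 + 1)]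
  rw [div_le_iff₀ (by positivity)]
  have h1 : |(x.1 : ℝ) - x.2.1| ≤ x.1 + x.2.1 := by
    rw [abs_le]; constructor <;> linarith [Nat.cast_nonneg (α := ℝ) x.1, Nat.cast_nonneg (α := ℝ) x.2.1]
  have h2 : (0:ℝ) ≤ x.1 + x.2.1 := by positivity
  have h3 : (0:ℝ) ≤ x.2.2 := by positivity
  nlinarith

lemma c_radd {f g : α → ℕ × ℕ × ℕ} (hf : Computable f) (hg : Computable g) :
    Computable (fun a => radd (f a) (g a)) := by
  have f1 := Computable.fst.comp hf
  have f2 := Computable.fst.comp (Computable.snd.comp hf)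
  have f3 := Computable.snd.comp (Computable.snd.comp hf)
  have g1 := Computable.fst.comp hg
  have g2 := Computable.fst.comp (Computable.snd.comp hg)
  have g3 := Computable.snd.comp (Computable.snd.comp hg)
  have one : Computable (fun _ : α => 1) := c_const 1
  unfold radd
  exact (c_add (c_mul f1 (c_add g3 one)) (c_mul g1 (c_add f3 one))).pair
    ((c_add (c_mul f2 (c_add g3 one)) (c_mul g2 (c_add f3 one))).pair
      (c_add (c_add (c_mul f3 g3) f3) g3))

lemma c_rmul {f g : α → ℕ × ℕ × ℕ} (hf : Computable f) (hg : Computable g) :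
    Computable (fun a => rmul (f a) (g a)) := by
  have f1 := Computable.fst.comp hf
  have f2 := Computable.fst.comp (Computable.snd.comp hf)
  have f3 := Computable.snd.comp (Computable.snd.comp hf)
  have g1 := Computable.fst.comp hg
  have g2 := Computable.fst.comp (Computable.snd.comp hg)
  have g3 := Computable.snd.comp (Computable.snd.comp hg)
  unfold rmul
  exact (c_add (c_mul f1 g1) (c_mul f2 g2)).pair
    ((c_add (c_mul f1 g2) (c_mul f2 g1)).pair
      (c_add (c_add (c_mul f3 g3) f3) g3))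

lemma c_rneg {f : α → ℕ × ℕ × ℕ} (hf : Computable f) :
    Computable (fun a => rneg (f a)) := by
  have f1 := Computable.fst.comp hf
  have f2 := Computable.fst.comp (Computable.snd.comp hf)
  have f3 := Computable.snd.comp (Computable.snd.comp hf)
  unfold rneg
  exact f2.pair (f1.pair f3)

/-- A computable family of real numbers. -/
def CR (F : α → ℝ) : Prop :=
  ∃ q : α × ℕ → ℕ × ℕ × ℕ, Computable q ∧ ∀ a n, |F a - rat (q (a, n))| ≤ (1 / 2 : ℝ) ^ n

lemma CR.of_eq {F G : α → ℝ} (h : CR F) (e : ∀ a, F a = G a) : CR G := by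
  have : F = G := funext e
  rwa [this] at h

lemma CR.comp {G : β → ℝ} (hG : CR G) {h : α → β} (hh : Computable h) :
    CR (fun a => G (h a)) := by
  obtain ⟨q, hq, H⟩ := hG
  refine ⟨fun p => q (h p.1, p.2), ?_, fun a n => H (h a) n⟩
  exact hq.comp ((hh.comp Computable.fst).pair Computable.snd)

lemma CR.frac {A D : α → ℕ} (hA : Computable A) (hD : Computable D) :
    CR (fun a => (A a : ℝ) / (D a + 1)) := by
  refine ⟨fun p => (A p.1, 0, D p.1), ?_, fun a n => ?_⟩
  · exact (hA.comp Computable.fst).pair ((c_const 0).pair (hD.comp Computable.fst))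
  · simp [rat]

lemma CR.nat {A : α → ℕ} (hA : Computable A) : CR (fun a => (A a : ℝ)) := by
  refine (CR.frac hA (c_const 0)).of_eq (fun a => ?_)
  simp

lemma CR.zero : CR (fun _ : α => (0 : ℝ)) := by
  refine (CR.nat (c_const 0)).of_eq (fun a => ?_)
  simp

lemma CR.neg {F : α → ℝ} (hF : CR F) : CR (fun a => - F a) := by
  obtain ⟨q, hq, H⟩ := hF
  refine ⟨fun p => rneg (q p), c_rneg hq, fun a n => ?_⟩
  rw [rat_rneg]
  have := H a n
  rw [← abs_neg]
  convert this using 2
  ring

lemma CR.add {F G : α → ℝ} (hF : CR F) (hG : CR G) : CR (fun a => F a + G a) := by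
  obtain ⟨q, hq, H⟩ := hF
  obtain ⟨r, hr, K⟩ := hG
  refine ⟨fun p => radd (q (p.1, p.2 + 1)) (r (p.1, p.2 + 1)), ?_, fun a n => ?_⟩
  · have : Computable (fun p : α × ℕ => (p.1, p.2 + 1)) :=
      Computable.fst.pair (c_add Computable.snd (c_const 1))
    exact c_radd (hq.comp this) (hr.comp this)
  · rw [rat_radd]
    have h1 := H a (n + 1)
    have h2 := K a (n + 1)
    have e : F a + G a - (rat (q (a, n + 1)) + rat (r (a, n + 1))) =
      (F a - rat (q (a, n + 1))) + (G a - rat (r (a, n + 1))) := by ring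
    simp only [e]
    refine (abs_add_le _ _).trans ?_
    rw [pow_succ] at h1 h2
    linarith

lemma CR.sub {F G : α → ℝ} (hF : CR F) (hG : CR G) : CR (fun a => F a - G a) :=
  (hF.add hG.neg).of_eq (fun a => by ring)

lemma le_two_pow_real (k : ℕ) : (k : ℝ) ≤ 2 ^ k := by
  exact_mod_cast (Nat.lt_two_pow_self (n := k)).le

lemma CR.mul {F G : α → ℝ} (hF : CR F) (hG : CR G) : CR (fun a => F a * G a) := by
  obtain ⟨q, hq, H⟩ := hF
  obtain ⟨r, hr, K⟩ := hG
  set BF : α → ℕ := fun a => (q (a, 0)).1 + (q (a, 0)).2.1 + 1 with hBF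
  set BG : α → ℕ := fun a => (r (a, 0)).1 + (r (a, 0)).2.1 + 1 with hBG
  have cq0 : Computable (fun a => q (a, 0)) := hq.comp (Computable.id.pair (c_const 0))
  have cr0 : Computable (fun a => r (a, 0)) := hr.comp (Computable.id.pair (c_const 0))
  have cBF : Computable BF := c_add (c_add (Computable.fst.comp cq0)
    (Computable.fst.comp (Computable.snd.comp cq0))) (c_const 1)
  have cBG : Computable BG := c_add (c_add (Computable.fst.comp cr0)
    (Computable.fst.comp (Computable.snd.comp cr0))) (c_const 1)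
  have bF : ∀ a, |F a| ≤ BF a := by
    intro a
    have h1 := H a 0
    have h2 := abs_rat_le (q (a, 0))
    have h3 : |F a| ≤ |F a - rat (q (a, 0))| + |rat (q (a, 0))| := by
      have := abs_add_le (F a - rat (q (a, 0))) (rat (q (a, 0)))
      simpa using this
    simp only [hBF]
    push_cast
    rw [pow_zero] at h1
    linarith
  have bG : ∀ a, |G a| ≤ BG a := by
    intro a
    have h1 := K a 0
    have h2 := abs_rat_le (r (a, 0))
    have h3 : |G a| ≤ |G a - rat (r (a, 0))| + |rat (r (a, 0))| := by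
      have := abs_add_le (G a - rat (r (a, 0))) (rat (r (a, 0)))
      simpa using this
    simp only [hBG]
    push_cast
    rw [pow_zero] at h1
    linarith
  set N : α × ℕ → ℕ := fun p => p.2 + (BF p.1 + BG p.1 + 1) with hN
  have cN : Computable N := c_add Computable.snd (c_add (c_add (cBF.comp Computable.fst)
    (cBG.comp Computable.fst)) (c_const 1))
  refine ⟨fun p => rmul (q (p.1, N p)) (r (p.1, N p)), ?_, fun a n => ?_⟩
  · exact c_rmul (hq.comp (Computable.fst.pair cN)) (hr.comp (Computable.fst.pair cN))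
  · rw [rat_rmul]
    set m := N (a, n) with hm
    have h1 := H a m
    have h2 := K a m
    set x := rat (q (a, m))
    set y := rat (r (a, m))
    have hmn : m = n + (BF a + BG a + 1) := rfl
    have hpm : (1 / 2 : ℝ) ^ m ≤ 1 := pow_le_one₀ (by norm_num) (by norm_num)
    have hpos : (0:ℝ) ≤ (1 / 2 : ℝ) ^ m := by positivity
    have hy : |y| ≤ BG a + 1 := by
      have h3 : |y| ≤ |G a - y| + |G a| := by
        have := abs_sub_le y (G a) 0
        simp only [sub_zero] at this
        rw [abs_sub_comm] at this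
        exact this
      have := bG a
      linarith
    have e : F a * G a - x * y = F a * (G a - y) + (F a - x) * y := by ring
    rw [e]
    refine (abs_add_le _ _).trans ?_
    rw [abs_mul, abs_mul]
    have h4 : |F a| * |G a - y| ≤ BF a * (1 / 2 : ℝ) ^ m :=
      mul_le_mul (bF a) h2 (abs_nonneg _) (by positivity)
    have h5 : |F a - x| * |y| ≤ (1 / 2 : ℝ) ^ m * (BG a + 1) :=
      mul_le_mul h1 hy (abs_nonneg _) hpos
    have h6 : ((BF a + BG a + 1 : ℕ) : ℝ) * (1 / 2 : ℝ) ^ m ≤ (1 / 2 : ℝ) ^ n := by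
      rw [hmn, pow_add]
      have h7 := le_two_pow_real (BF a + BG a + 1)
      have h8 : (1 / 2 : ℝ) ^ (BF a + BG a + 1) * 2 ^ (BF a + BG a + 1) = 1 := by
        rw [← mul_pow]; norm_num
      have h9 : (0:ℝ) ≤ (1 / 2 : ℝ) ^ n := by positivity
      have h10 : (0:ℝ) ≤ (1 / 2 : ℝ) ^ (BF a + BG a + 1) := by positivity
      calc ((BF a + BG a + 1 : ℕ) : ℝ) * ((1 / 2 : ℝ) ^ n * (1 / 2 : ℝ) ^ (BF a + BG a + 1))
          = (1 / 2 : ℝ) ^ n * ((1 / 2 : ℝ) ^ (BF a + BG a + 1) * ((BF a + BG a + 1 : ℕ) : ℝ)) := by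
            ring
        _ ≤ (1 / 2 : ℝ) ^ n * ((1 / 2 : ℝ) ^ (BF a + BG a + 1) * 2 ^ (BF a + BG a + 1)) :=
            mul_le_mul_of_nonneg_left (mul_le_mul_of_nonneg_left h7 h10) h9
        _ = (1 / 2 : ℝ) ^ n := by rw [h8, mul_one]
    push_cast at h6
    linarith

lemma CR.ite {c : α → Bool} {F G : α → ℝ} (hc : Computable c) (hF : CR F) (hG : CR G) :
    CR (fun a => if c a = true then F a else G a) := by
  obtain ⟨q, hq, H⟩ := hF
  obtain ⟨r, hr, K⟩ := hG
  refine ⟨fun p => if c p.1 = true then q p else r p, c_ite (hc.comp Computable.fst) hq hr,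
    fun a n => ?_⟩
  by_cases h : c a = true
  · simp only [h, if_true]; exact H a n
  · simp only [h]; exact K a n

lemma CR.lim {F : α → ℝ} {G : α × ℕ → ℝ} (hG : CR G)
    (h : ∀ a n, |F a - G (a, n)| ≤ (1 / 2 : ℝ) ^ n) : CR F := by
  obtain ⟨q, hq, H⟩ := hG
  refine ⟨fun p => q ((p.1, p.2 + 1), p.2 + 1), ?_, fun a n => ?_⟩
  · have c1 : Computable (fun p : α × ℕ => p.2 + 1) := c_add Computable.snd (c_const 1)
    exact hq.comp ((Computable.fst.pair c1).pair c1)
  · have h1 := h a (n + 1)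
    have h2 := H (a, n + 1) (n + 1)
    have h3 := abs_sub_le (F a) (G (a, n + 1)) (rat (q ((a, n + 1), n + 1)))
    rw [pow_succ] at h1 h2
    simp only at *
    linarith

lemma CR.sum {k : α → ℕ} (hk : Computable k) {G : α × ℕ → ℝ} (hG : CR G) :
    CR (fun a => ∑ j ∈ Finset.range (k a), G (a, j)) := by
  obtain ⟨q, hq, H⟩ := hG
  set S : α × ℕ → ℕ → ℕ × ℕ × ℕ := fun p m =>
    Nat.rec (0, 0, 0) (fun y IH => radd IH (q ((p.1, y), p.2 + k p.1))) m with hS
  refine ⟨fun p => S p (k p.1), ?_, fun a n => ?_⟩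
  · refine Computable.nat_rec (f := fun p : α × ℕ => k p.1)
      (g := fun _ : α × ℕ => ((0, 0, 0) : ℕ × ℕ × ℕ))
      (h := fun (p : α × ℕ) (yi : ℕ × (ℕ × ℕ × ℕ)) => radd yi.2 (q ((p.1, yi.1), p.2 + k p.1)))
      (hk.comp Computable.fst) (c_const ((0, 0, 0) : ℕ × ℕ × ℕ)) ?_
    have e1 : Computable (fun x : (α × ℕ) × (ℕ × (ℕ × ℕ × ℕ)) => x.2.2) :=
      Computable.snd.comp Computable.snd
    have e2 : Computable (fun x : (α × ℕ) × (ℕ × (ℕ × ℕ × ℕ)) => x.1.1) :=
      Computable.fst.comp Computable.fst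
    have e3 : Computable (fun x : (α × ℕ) × (ℕ × (ℕ × ℕ × ℕ)) => x.1.2) :=
      Computable.snd.comp Computable.fst
    have e4 : Computable (fun x : (α × ℕ) × (ℕ × (ℕ × ℕ × ℕ)) => x.2.1) :=
      Computable.fst.comp Computable.snd
    exact c_radd e1 (hq.comp ((e2.pair e4).pair (c_add e3 (hk.comp e2))))
  · have key : ∀ m, |∑ j ∈ Finset.range m, G (a, j) - rat (S (a, n) m)|
        ≤ m * (1 / 2 : ℝ) ^ (n + k a) := by
      intro m
      induction m with
      | zero => simp [hS, rat]
      | succ m ih =>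
        have hs : S (a, n) (m + 1) = radd (S (a, n) m) (q ((a, m), n + k a)) := rfl
        rw [hs, rat_radd, Finset.sum_range_succ]
        have h1 := H (a, m) (n + k a)
        have e : ∑ j ∈ Finset.range m, G (a, j) + G (a, m) -
            (rat (S (a, n) m) + rat (q ((a, m), n + k a))) =
            (∑ j ∈ Finset.range m, G (a, j) - rat (S (a, n) m)) +
            (G (a, m) - rat (q ((a, m), n + k a))) := by ring
        rw [e]
        refine (abs_add_le _ _).trans ?_
        push_cast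
        linarith
    have h2 := key (k a)
    refine h2.trans ?_
    rw [pow_add]
    have h7 := le_two_pow_real (k a)
    have h8 : (1 / 2 : ℝ) ^ (k a) * 2 ^ (k a) = 1 := by
      rw [← mul_pow]; norm_num
    have h9 : (0:ℝ) ≤ (1 / 2 : ℝ) ^ n := by positivity
    have h10 : (0:ℝ) ≤ (1 / 2 : ℝ) ^ (k a) := by positivity
    calc (k a : ℝ) * ((1 / 2 : ℝ) ^ n * (1 / 2 : ℝ) ^ (k a))
        = (1 / 2 : ℝ) ^ n * ((1 / 2 : ℝ) ^ (k a) * (k a : ℝ)) := by ring
      _ ≤ (1 / 2 : ℝ) ^ n * ((1 / 2 : ℝ) ^ (k a) * 2 ^ (k a)) :=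
          mul_le_mul_of_nonneg_left (mul_le_mul_of_nonneg_left h7 h10) h9
      _ = (1 / 2 : ℝ) ^ n := by rw [h8, mul_one]

/-- error estimate for `(1 - v / m) ^ m` -/
lemma exp_neg_approx {v : ℝ} (hv : 0 ≤ v) {m : ℕ} (hm : 0 < m) (hvm : v ≤ m) :
    |Real.exp (-v) - (1 - v / m) ^ m| ≤ v ^ 2 / m := by
  have hm' : (0:ℝ) < m := by exact_mod_cast hm
  have h1 : (1 - v / m) ^ m ≤ Real.exp (-v) := Real.one_sub_div_pow_le_exp_neg hvm
  have h2 : (1 + v / m) ^ m ≤ Real.exp v := by
    have h3 : 1 + v / m ≤ Real.exp (v / m) := by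
      have := Real.add_one_le_exp (v / m); linarith
    calc (1 + v / m) ^ m ≤ (Real.exp (v / m)) ^ m := by gcongr
      _ = Real.exp v := by rw [← Real.exp_nat_mul]; congr 1; field_simp
  have h4 : 1 - v ^ 2 / m ≤ (1 - v / m) ^ m * (1 + v / m) ^ m := by
    rw [← mul_pow]
    have h5 : (1 - v / m) * (1 + v / m) = 1 + -(v ^ 2 / m ^ 2) := by ring
    rw [h5]
    have h6 := one_add_mul_le_pow (a := -(v ^ 2 / m ^ 2)) (by
      have : v ^ 2 / m ^ 2 ≤ 1 := by
        rw [div_le_one (by positivity)]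
        gcongr
      linarith) m
    refine le_trans (le_of_eq ?_) h6
    field_simp
    ring
  have h7 : 0 ≤ (1 - v / m) ^ m := by
    apply pow_nonneg
    have : v / m ≤ 1 := by rw [div_le_one hm']; exact hvm
    linarith
  rw [abs_of_nonneg (by linarith)]
  -- exp(-v) - A ≤ v^2/m
  have h8 : Real.exp (-v) * Real.exp v = 1 := by rw [← Real.exp_add]; simp
  have h9 : (1 - v / m) ^ m * (1 + v / m) ^ m ≤ (1 - v / m) ^ m * Real.exp v :=
    mul_le_mul_of_nonneg_left h2 h7
  have h10 : 1 ≤ Real.exp v := Real.one_le_exp hv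
  have h11 : (Real.exp (-v) - (1 - v / m) ^ m) * Real.exp v ≤ v ^ 2 / m := by
    rw [sub_mul, h8]; linarith
  nlinarith [Real.exp_pos (-v)]

lemma CR.exp_neg {A D : α → ℕ} (hA : Computable A) (hD : Computable D) :
    CR (fun a => Real.exp (-((A a : ℝ) / (D a + 1)))) := by
  set m : α × ℕ → ℕ := fun p => (A p.1 * A p.1 + 1) * 2 ^ p.2 with hm
  have cA : Computable (fun p : α × ℕ => A p.1) := hA.comp Computable.fst
  have cD : Computable (fun p : α × ℕ => D p.1) := hD.comp Computable.fst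
  have cm : Computable m := c_mul (c_add (c_mul cA cA) (c_const 1)) (c_pow (c_const 2)
    Computable.snd)
  refine ⟨fun p => (((D p.1 + 1) * m p - A p.1) ^ m p, 0, ((D p.1 + 1) * m p) ^ m p - 1),
    ?_, fun a n => ?_⟩
  · have e1 : Computable (fun p : α × ℕ => (D p.1 + 1) * m p) := c_mul (c_add cD (c_const 1)) cm
    exact (c_pow (c_sub e1 cA) cm).pair ((c_const 0).pair (c_sub (c_pow e1 cm) (c_const 1)))
  · set M := m (a, n) with hM
    have hM' : M = (A a * A a + 1) * 2 ^ n := rfl
    have hMpos : 0 < M := by rw [hM']; positivity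
    have hMA : A a ≤ M := by
      rw [hM']
      have h1 : A a ≤ A a * A a + 1 := by nlinarith
      have h2 : 1 ≤ 2 ^ n := Nat.one_le_two_pow
      calc A a ≤ A a * A a + 1 := h1
        _ = (A a * A a + 1) * 1 := by ring
        _ ≤ _ := Nat.mul_le_mul_left _ h2
    have hMA2 : A a ≤ (D a + 1) * M := by nlinarith
    have hv : (0:ℝ) ≤ (A a : ℝ) / (D a + 1) := by positivity
    have hvA : (A a : ℝ) / (D a + 1) ≤ A a := by
      rw [div_le_iff₀ (by positivity)]
      have : (0:ℝ) ≤ A a := by positivity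
      have : (0:ℝ) ≤ D a := by positivity
      nlinarith
    have hrat : rat (((D a + 1) * M - A a) ^ M, 0, ((D a + 1) * M) ^ M - 1) =
        (1 - (A a : ℝ) / (D a + 1) / M) ^ M := by
      unfold rat
      simp only
      have h1 : 1 ≤ ((D a + 1) * M) ^ M := Nat.one_le_pow _ _ (by positivity)
      rw [Nat.cast_sub h1]
      push_cast
      rw [Nat.cast_sub hMA2]
      push_cast
      rw [sub_zero, sub_add_cancel, ← div_pow]
      congr 1
      have h3 : (D a : ℝ) + 1 ≠ 0 := by positivity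
      have h4 : (M : ℝ) ≠ 0 := by positivity
      field_simp
    simp only
    rw [← hM, hrat]
    have hvM : (A a : ℝ) / (D a + 1) ≤ M := hvA.trans (by exact_mod_cast hMA)
    refine (exp_neg_approx hv hMpos hvM).trans ?_
    rw [div_le_iff₀ (by positivity)]
    have h5 : ((A a : ℝ) / (D a + 1)) ^ 2 ≤ A a ^ 2 := by gcongr
    refine h5.trans ?_
    rw [hM']
    push_cast
    have h6 : (1 / 2 : ℝ) ^ n * 2 ^ n = 1 := by rw [← mul_pow]; norm_num
    calc (A a : ℝ) ^ 2 ≤ (A a * A a + 1) * 1 := by nlinarith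
      _ = (A a * A a + 1) * ((1 / 2 : ℝ) ^ n * 2 ^ n) := by rw [h6]
      _ = (1 / 2 : ℝ) ^ n * ((A a * A a + 1) * 2 ^ n) := by ring

lemma CR.of_computableReal {ν : ℝ} (h : ComputableReal ν) : CR (fun _ : α => ν) := by
  obtain ⟨q, hq, H⟩ := h
  refine ⟨fun p => q (2 ^ p.2), hq.comp (c_pow (c_const 2) Computable.snd), fun a n => ?_⟩
  refine (H (2 ^ n)).trans ?_
  have h1 : (0:ℝ) < 2 ^ n := by positivity
  rw [one_div, one_div, inv_pow]
  apply inv_anti₀ h1
  push_cast
  linarith

end basic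

end Vale.Agent.P113
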