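import Vale.Agent.P113.Comp

/-! Computability of the concrete ingredients: coefficients, bumps, Turing machines. -/

namespace Vale.Agent.P113

open Set Filter

/-! ### Pascal-type triangles -/

lemma primrec_pascal (F : ℕ → ℕ → ℕ) (c : ℕ → ℕ) (d : ℕ × ℕ → ℕ) (hc : Primrec c)
    (hd : Primrec d) (h00 : F 0 0 = 1) (h0 : ∀ j, F 0 (j + 1) = 0)
    (h1 : ∀ k, F (k + 1) 0 = c k * F k 0)
    (h2 : ∀ k j, F (k + 1) (j + 1) = F k j + d (k, j) * F k (j + 1)) : Primrec₂ F := by
  have key : Primrec₂ (fun (_ : Unit) (n : ℕ) => F n.unpair.1 n.unpair.2) := by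
    refine Primrec.nat_strong_rec _ (g := fun _ l =>
      some (if l.length.unpair.1 = 0 then (if l.length.unpair.2 = 0 then 1 else 0)
        else if l.length.unpair.2 = 0 then
          c (l.length.unpair.1 - 1) * l.getD (Nat.pair (l.length.unpair.1 - 1) 0) 0
        else l.getD (Nat.pair (l.length.unpair.1 - 1) (l.length.unpair.2 - 1)) 0 +
          d (l.length.unpair.1 - 1, l.length.unpair.2 - 1) *
            l.getD (Nat.pair (l.length.unpair.1 - 1) l.length.unpair.2) 0)) ?_ ?_
    · have len : Primrec (fun p : Unit × List ℕ => p.2.length) :=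
        Primrec.list_length.comp Primrec.snd
      have k : Primrec (fun p : Unit × List ℕ => p.2.length.unpair.1) :=
        Primrec.fst.comp (Primrec.unpair.comp len)
      have j : Primrec (fun p : Unit × List ℕ => p.2.length.unpair.2) :=
        Primrec.snd.comp (Primrec.unpair.comp len)
      have zero : Primrec (fun _ : Unit × List ℕ => 0) := Primrec.const 0
      have one : Primrec (fun _ : Unit × List ℕ => 1) := Primrec.const 1
      have k1 : Primrec (fun p : Unit × List ℕ => p.2.length.unpair.1 - 1) :=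
        Primrec.nat_sub.comp k one
      have j1 : Primrec (fun p : Unit × List ℕ => p.2.length.unpair.2 - 1) :=
        Primrec.nat_sub.comp j one
      have l : Primrec (fun p : Unit × List ℕ => p.2) := Primrec.snd
      have hk0 : PrimrecPred (fun p : Unit × List ℕ => p.2.length.unpair.1 = 0) :=
        PrimrecRel.comp Primrec.eq k zero
      have hj0 : PrimrecPred (fun p : Unit × List ℕ => p.2.length.unpair.2 = 0) :=
        PrimrecRel.comp Primrec.eq j zero
      refine Primrec.option_some.comp (Primrec.ite hk0 (Primrec.ite hj0 one zero)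
        (Primrec.ite hj0 ?_ ?_))
      · exact Primrec.nat_mul.comp (hc.comp k1)
          ((Primrec.list_getD 0).comp l (Primrec₂.natPair.comp k1 zero))
      · exact Primrec.nat_add.comp ((Primrec.list_getD 0).comp l (Primrec₂.natPair.comp k1 j1))
          (Primrec.nat_mul.comp (hd.comp (k1.pair j1))
            ((Primrec.list_getD 0).comp l (Primrec₂.natPair.comp k1 j)))
    · intro _ n
      have hget : ∀ i, i < n → (List.map (fun n : ℕ => F n.unpair.1 n.unpair.2)
          (List.range n)).getD i 0 = F i.unpair.1 i.unpair.2 := by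
        intro i hi
        simp [List.getD_eq_getElem?_getD, hi]
      simp only [List.length_map, List.length_range]
      congr 1
      rcases hk : n.unpair.1 with _ | k
      · rcases hj : n.unpair.2 with _ | j
        · simp [h00]
        · simp [h0]
      · have hn : n = Nat.pair (k + 1) n.unpair.2 := by
          rw [← hk, Nat.pair_unpair]
        rcases hj : n.unpair.2 with _ | j
        · have e1 : Nat.pair k 0 < n := by
            rw [hn, hj]; exact Nat.pair_lt_pair_left _ (by omega)
          simp only [Nat.add_sub_cancel]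
          rw [hget _ e1]
          simp [h1]
        · have e1 : Nat.pair k (j + 1) < n := by
            rw [hn, hj]; exact Nat.pair_lt_pair_left _ (by omega)
          have e2 : Nat.pair k j < n := (Nat.pair_lt_pair_right k (by omega)).trans e1
          simp only [Nat.add_sub_cancel]
          rw [hget _ e1, hget _ e2]
          simp [h2]
  have h2 : Primrec (fun p : Unit × ℕ => F p.2.unpair.1 p.2.unpair.2) := key
  have h3 : Primrec (fun p : ℕ × ℕ => (((), Nat.pair p.1 p.2) : Unit × ℕ)) :=
    (Primrec.const ()).pair (Primrec₂.natPair.comp Primrec.fst Primrec.snd)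
  exact Primrec₂.mk ((h2.comp h3).of_eq (fun p => by simp))

lemma primrec_lah : Primrec₂ lah := by
  refine primrec_pascal lah (fun k => k) (fun p => p.1 + p.2 + 1) Primrec.id ?_ rfl
    (fun _ => rfl) (fun k => rfl) (fun k j => rfl)
  exact Primrec.nat_add.comp (Primrec.nat_add.comp Primrec.fst Primrec.snd) (Primrec.const 1)

lemma primrec_choose : Primrec₂ Nat.choose := by
  refine primrec_pascal Nat.choose (fun _ => 1) (fun _ => 1) (Primrec.const 1)
    (Primrec.const 1) rfl (fun _ => rfl) (fun k => by simp) (fun k j => ?_)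
  rw [Nat.choose_succ_succ]; simp

section families

variable {α : Type*} [Primcodable α]

lemma c_lah {k j : α → ℕ} (hk : Computable k) (hj : Computable j) :
    Computable (fun a => lah (k a) (j a)) := primrec_lah.to_comp.comp hk hj

lemma c_choose {k j : α → ℕ} (hk : Computable k) (hj : Computable j) :
    Computable (fun a => (k a).choose (j a)) := primrec_choose.to_comp.comp hk hj

lemma CR.negOnePow {m : α → ℕ} (hm : Computable m) : CR (fun a => (-1 : ℝ) ^ (m a)) := by
  have h1 : CR (fun _ : α => (1:ℝ)) := (CR.nat (c_const 1)).of_eq (fun _ => by simp)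
  refine (CR.ite (c_eq (c_mod hm (c_const 2)) (c_const 0)) h1 h1.neg).of_eq (fun a => ?_)
  rcases Nat.even_or_odd (m a) with h | h
  · have h2 : m a % 2 = 0 := Nat.even_iff.1 h
    simp [h2, h.neg_one_pow]
  · have h2 : m a % 2 = 1 := Nat.odd_iff.1 h
    simp [h2, h.neg_one_pow]

/-- powers of a rational number -/
lemma CR.fracPow {A D m : α → ℕ} (hA : Computable A) (hD : Computable D) (hm : Computable m) :
    CR (fun a => ((A a : ℝ) / (D a + 1)) ^ (m a)) := by
  refine (CR.frac (c_pow hA hm) (c_sub (c_pow (c_add hD (c_const 1)) hm) (c_const 1))).of_eq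
    (fun a => ?_)
  have h1 : 1 ≤ (D a + 1) ^ m a := Nat.one_le_pow _ _ (by omega)
  rw [Nat.cast_sub h1, div_pow]
  push_cast
  ring

lemma CR.theta {k A D : α → ℕ} (hk : Computable k) (hA : Computable A) (hD : Computable D) :
    CR (fun a => θ (k a) ((A a : ℝ) / (D a + 1))) := by
  have hk1 : Computable (fun a => k a + 1) := c_add hk (c_const 1)
  have hD1 : Computable (fun a => D a + 1) := c_add hD (c_const 1)
  have hA1 : Computable (fun a => A a - 1) := c_sub hA (c_const 1)
  -- on `α × ℕ`
  have pk : Computable (fun p : α × ℕ => k p.1 + p.2) := c_add (hk.comp Computable.fst)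
    Computable.snd
  have s : CR (fun a => ∑ j ∈ Finset.range (k a + 1), (-1 : ℝ) ^ (k a + j) *
      (lah (k a) j : ℝ) * ((((D a + 1 : ℕ) : ℝ)) / (((A a - 1 : ℕ) : ℝ) + 1)) ^ (k a + j)) := by
    refine CR.sum (G := fun p : α × ℕ => (-1 : ℝ) ^ (k p.1 + p.2) *
      (lah (k p.1) p.2 : ℝ) *
        ((((D p.1 + 1 : ℕ) : ℝ)) / (((A p.1 - 1 : ℕ) : ℝ) + 1)) ^ (k p.1 + p.2)) hk1 ?_
    refine ((CR.negOnePow pk).mul (CR.nat (c_lah (hk.comp Computable.fst)
      Computable.snd))).mul ?_
    exact CR.fracPow (hD1.comp Computable.fst) (hA1.comp Computable.fst) pk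
  have e := CR.exp_neg hD1 hA1
  refine (CR.ite (c_eq hA (c_const 0)) CR.zero (s.mul e)).of_eq (fun a => ?_)
  rcases Nat.eq_zero_or_pos (A a) with h | h
  · simp [h, θ_of_nonpos]
  · have h1 : ¬ (A a = 0) := by omega
    simp only [h1, decide_false]
    have hA' : (0:ℝ) < A a := by exact_mod_cast h
    have hx : (0:ℝ) < (A a : ℝ) / (D a + 1) := by positivity
    rw [θ_of_pos _ hx]
    have h2 : (((A a - 1 : ℕ) : ℝ) + 1) = A a := by
      rw [Nat.cast_sub h]; simp
    rw [h2, inv_div]
    push_cast
    simp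

/-- `phi` at points given by truncated numerators -/
lemma CR.phi {k A₁ D₁ A₂ D₂ : α → ℕ} (hk : Computable k) (hA₁ : Computable A₁)
    (hD₁ : Computable D₁) (hA₂ : Computable A₂) (hD₂ : Computable D₂) :
    CR (fun a => ∑ j ∈ Finset.range (k a + 1), ((k a).choose j : ℝ) *
      θ j ((A₁ a : ℝ) / (D₁ a + 1)) *
        ((-1) ^ (k a - j) * θ (k a - j) ((A₂ a : ℝ) / (D₂ a + 1)))) := by
  refine CR.sum (G := fun p : α × ℕ => ((k p.1).choose p.2 : ℝ) *
      θ p.2 ((A₁ p.1 : ℝ) / (D₁ p.1 + 1)) *
        ((-1) ^ (k p.1 - p.2) * θ (k p.1 - p.2) ((A₂ p.1 : ℝ) / (D₂ p.1 + 1))))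
    (c_add hk (c_const 1)) ?_
  have f : ∀ {g : α → ℕ}, Computable g → Computable (fun p : α × ℕ => g p.1) :=
    fun h => h.comp Computable.fst
  have ks : Computable (fun p : α × ℕ => k p.1 - p.2) := c_sub (f hk) Computable.snd
  exact ((CR.nat (c_choose (f hk) Computable.snd)).mul
    (CR.theta Computable.snd (f hA₁) (f hD₁))).mul
    ((CR.negOnePow ks).mul (CR.theta ks (f hA₂) (f hD₂)))

end families

/-! ### Turing machines -/

lemma step_eq (M : Machine) (c : Config) : step M c =
    Option.casesOn (M.2.find? (fun e => e.1 == c.1 && e.2.1 == c.2.2.headI)) c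
      (fun e => Option.casesOn e.2.2.2.2 (e.2.2.1, c.2.1, e.2.2.2.1 :: c.2.2.tail)
        (fun b => cond b (e.2.2.1, e.2.2.2.1 :: c.2.1, c.2.2.tail)
          (e.2.2.1, c.2.1.tail, c.2.1.headI :: e.2.2.2.1 :: c.2.2.tail))) := by
  unfold step
  generalize M.2.find? (fun e => e.1 == c.1 && e.2.1 == c.2.2.headI) = o
  rcases o with _ | e
  · rfl
  · obtain ⟨q, a, q', a', d⟩ := e
    rcases d with _ | b
    · rfl
    · rfl

lemma primrec_upd {γ : Type} [Primcodable γ] {f : γ → Config}
    {e : γ → ℕ × ℕ × ℕ × ℕ × Option Bool} (hf : Primrec f) (he : Primrec e) :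
    Primrec (fun x => (Option.casesOn (e x).2.2.2.2
      ((e x).2.2.1, (f x).2.1, (e x).2.2.2.1 :: (f x).2.2.tail)
        (fun b => cond b ((e x).2.2.1, (e x).2.2.2.1 :: (f x).2.1, (f x).2.2.tail)
          ((e x).2.2.1, (f x).2.1.tail, (f x).2.1.headI :: (e x).2.2.2.1 :: (f x).2.2.tail))
          : Config)) := by
  have q' : Primrec (fun x => (e x).2.2.1) :=
    Primrec.fst.comp (Primrec.snd.comp (Primrec.snd.comp he))
  have a' : Primrec (fun x => (e x).2.2.2.1) :=
    Primrec.fst.comp (Primrec.snd.comp (Primrec.snd.comp (Primrec.snd.comp he)))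
  have d : Primrec (fun x => (e x).2.2.2.2) :=
    Primrec.snd.comp (Primrec.snd.comp (Primrec.snd.comp (Primrec.snd.comp he)))
  have L : Primrec (fun x => (f x).2.1) := Primrec.fst.comp (Primrec.snd.comp hf)
  have R : Primrec (fun x => (f x).2.2) := Primrec.snd.comp (Primrec.snd.comp hf)
  have Rt := Primrec.list_tail.comp R
  have Lt := Primrec.list_tail.comp L
  have Lh := Primrec.list_headI.comp L
  have c1 : Primrec (fun x => (((e x).2.2.1, (f x).2.1, (e x).2.2.2.1 :: (f x).2.2.tail)
    : Config)) := q'.pair (L.pair (Primrec.list_cons.comp a' Rt))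
  have c2 : Primrec (fun x => (((e x).2.2.1, (e x).2.2.2.1 :: (f x).2.1, (f x).2.2.tail)
    : Config)) := q'.pair ((Primrec.list_cons.comp a' L).pair Rt)
  have c3 : Primrec (fun x => (((e x).2.2.1, (f x).2.1.tail,
          (f x).2.1.headI :: (e x).2.2.2.1 :: (f x).2.2.tail) : Config)) :=
    q'.pair (Lt.pair (Primrec.list_cons.comp Lh (Primrec.list_cons.comp a' Rt)))
  exact Primrec.option_casesOn d c1
    (Primrec.cond Primrec.snd (c2.comp Primrec.fst) (c3.comp Primrec.fst)).to₂

lemma primrec_step : Primrec₂ step := by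
  have hM : Primrec (fun p : Machine × Config => p.1.2) := Primrec.snd.comp Primrec.fst
  have hp : Primrec₂ (fun (p : Machine × Config) (e : ℕ × ℕ × ℕ × ℕ × Option Bool) =>
      (e.1 == p.2.1 && e.2.1 == p.2.2.2.headI)) := by
    have e1 : Primrec (fun x : (Machine × Config) × (ℕ × ℕ × ℕ × ℕ × Option Bool) => x.2.1) :=
      Primrec.fst.comp Primrec.snd
    have e2 : Primrec (fun x : (Machine × Config) × (ℕ × ℕ × ℕ × ℕ × Option Bool) => x.2.2.1) :=
      Primrec.fst.comp (Primrec.snd.comp Primrec.snd)
    have c : Primrec (fun x : (Machine × Config) × (ℕ × ℕ × ℕ × ℕ × Option Bool) => x.1.2) :=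
      Primrec.snd.comp Primrec.fst
    have q : Primrec (fun x : (Machine × Config) × (ℕ × ℕ × ℕ × ℕ × Option Bool) => x.1.2.1) :=
      Primrec.fst.comp c
    have r : Primrec (fun x : (Machine × Config) × (ℕ × ℕ × ℕ × ℕ × Option Bool) =>
        x.1.2.2.2.headI) := Primrec.list_headI.comp (Primrec.snd.comp (Primrec.snd.comp c))
    have b1 := Primrec.beq.comp e1 q
    have b2 := Primrec.beq.comp e2 r
    exact (Primrec.and.comp b1 b2)
  have hfind : Primrec (fun p : Machine × Config => p.1.2.find?
      (fun e => e.1 == p.2.1 && e.2.1 == p.2.2.2.headI)) := by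
    refine (Primrec.list_getElem?.comp hM (Primrec.list_findIdx hM hp)).of_eq (fun p => ?_)
    rw [List.find?_eq_getElem?_findIdx]
  have hc : Primrec (fun p : Machine × Config => p.2) := Primrec.snd
  have hs := primrec_upd (γ := (Machine × Config) × (ℕ × ℕ × ℕ × ℕ × Option Bool))
    (f := fun x => x.1.2) (e := fun x => x.2) (Primrec.snd.comp Primrec.fst) Primrec.snd
  have h := Primrec.option_casesOn hfind hc hs.to₂
  exact h.of_eq (fun p => (step_eq p.1 p.2).symm)

/-- is the machine in a halting state after `k` steps? -/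
def chi (M : Machine) (w : List ℕ) (k : ℕ) : Bool :=
  decide (((step M)^[k] (0, [], w)).1 ∈ M.1)

lemma computable_chi : Computable (fun x : (Machine × List ℕ) × ℕ => chi x.1.1 x.1.2 x.2) := by
  have hit : Primrec (fun x : (Machine × List ℕ) × ℕ =>
      ((step x.1.1)^[x.2] ((0, [], x.1.2) : Config))) := by
    refine Primrec.nat_iterate (f := fun x : (Machine × List ℕ) × ℕ => x.2)
      (g := fun x => ((0, [], x.1.2) : Config)) (h := fun x c => step x.1.1 c)
      Primrec.snd ?_ ?_
    · exact (Primrec.const 0).pair ((Primrec.const []).pair (Primrec.snd.comp Primrec.fst))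
    · exact primrec_step.comp (Primrec.fst.comp (Primrec.fst.comp Primrec.fst)) Primrec.snd
  have hl : Primrec (fun x : (Machine × List ℕ) × ℕ => x.1.1.1) :=
    Primrec.fst.comp (Primrec.fst.comp Primrec.fst)
  have hidx := Primrec.list_idxOf.comp (Primrec.fst.comp hit) hl
  have hlen := Primrec.list_length.comp hl
  have h := c_lt hidx.to_comp hlen.to_comp
  refine h.of_eq (fun x => ?_)
  unfold chi
  congr 1
  exact propext List.idxOf_lt_length_iff

/-- the weight of a pair machine/word: positive exactly when the machine halts -/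
noncomputable def wt (M : Machine) (w : List ℕ) : ℝ :=
  ∑' k, if chi M w k = true then (1 / 2 : ℝ) ^ (k + 1) else 0

lemma wt_term_nonneg (M : Machine) (w : List ℕ) (k : ℕ) :
    0 ≤ (if chi M w k = true then (1 / 2 : ℝ) ^ (k + 1) else 0) := by
  split_ifs <;> positivity

lemma wt_term_le (M : Machine) (w : List ℕ) (k : ℕ) :
    (if chi M w k = true then (1 / 2 : ℝ) ^ (k + 1) else 0) ≤ (1 / 2 : ℝ) ^ (k + 1) := by
  split_ifs
  · exact le_rfl
  · positivity

lemma summable_half : Summable (fun k : ℕ => (1 / 2 : ℝ) ^ (k + 1)) := by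
  simp_rw [pow_succ]
  exact (summable_geometric_of_lt_one (by norm_num) (by norm_num)).mul_right _

lemma summable_wt (M : Machine) (w : List ℕ) :
    Summable (fun k : ℕ => if chi M w k = true then (1 / 2 : ℝ) ^ (k + 1) else 0) :=
  Summable.of_nonneg_of_le (wt_term_nonneg M w) (wt_term_le M w) summable_half

lemma tsum_half : ∑' k : ℕ, (1 / 2 : ℝ) ^ (k + 1) = 1 := by
  simp_rw [pow_succ]
  rw [tsum_mul_right, tsum_geometric_of_lt_one (by norm_num) (by norm_num)]
  norm_num

lemma wt_nonneg (M : Machine) (w : List ℕ) : 0 ≤ wt M w := tsum_nonneg (wt_term_nonneg M w)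

lemma wt_le_one (M : Machine) (w : List ℕ) : wt M w ≤ 1 := by
  rw [← tsum_half]
  exact (summable_wt M w).tsum_le_tsum (wt_term_le M w) summable_half

lemma wt_pos_iff (M : Machine) (w : List ℕ) : 0 < wt M w ↔ HaltsOn M w := by
  constructor
  · intro h
    by_contra hcon
    have : wt M w = 0 := by
      unfold wt
      have h0 : ∀ k, (if chi M w k = true then (1 / 2 : ℝ) ^ (k + 1) else 0) = 0 := by
        intro k
        rw [if_neg]
        intro hk
        exact hcon ⟨k, by simpa [chi] using hk⟩
      simp_rw [h0]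
      exact tsum_zero
    linarith
  · rintro ⟨k, hk⟩
    refine (summable_wt M w).tsum_pos (wt_term_nonneg M w) k ?_
    have : chi M w k = true := by simpa [chi] using hk
    rw [if_pos this]
    positivity

lemma CR_wt : CR (fun x : Machine × List ℕ => wt x.1 x.2) := by
  have hG : CR (fun p : (Machine × List ℕ) × ℕ => ∑ k ∈ Finset.range p.2,
      (if chi p.1.1 p.1.2 k = true then (1 / 2 : ℝ) ^ (k + 1) else 0)) := by
    refine CR.sum (k := fun p : (Machine × List ℕ) × ℕ => p.2)
      (G := fun q : ((Machine × List ℕ) × ℕ) × ℕ =>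
        (if chi q.1.1.1 q.1.1.2 q.2 = true then (1 / 2 : ℝ) ^ (q.2 + 1) else 0))
      Computable.snd ?_
    have hc : Computable (fun q : ((Machine × List ℕ) × ℕ) × ℕ => chi q.1.1.1 q.1.1.2 q.2) := by
      have h1 : Computable (fun q : ((Machine × List ℕ) × ℕ) × ℕ => (q.1.1, q.2)) :=
        (Computable.fst.comp Computable.fst).pair Computable.snd
      have h2 := computable_chi.comp h1
      exact h2
    have hp : CR (fun q : ((Machine × List ℕ) × ℕ) × ℕ => (1 / 2 : ℝ) ^ (q.2 + 1)) := by
      refine (CR.fracPow (A := fun _ => 1) (D := fun _ => 1) (c_const 1) (c_const 1)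
        (c_add Computable.snd (c_const 1))).of_eq (fun q => ?_)
      norm_num
    exact CR.ite hc hp CR.zero
  refine CR.lim hG (fun x n => ?_)
  simp only
  unfold wt
  rw [← (summable_wt x.1 x.2).sum_add_tsum_nat_add n, add_sub_cancel_left]
  rw [abs_of_nonneg (tsum_nonneg (fun k => wt_term_nonneg x.1 x.2 (k + n)))]
  have h1 : ∑' k : ℕ, (if chi x.1 x.2 (k + n) = true then (1 / 2 : ℝ) ^ (k + n + 1) else 0) ≤
      ∑' k : ℕ, (1 / 2 : ℝ) ^ n * (1 / 2 : ℝ) ^ (k + 1) := by
    refine Summable.tsum_le_tsum (fun k => ?_) ?_ (summable_half.mul_left _)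
    · refine (wt_term_le x.1 x.2 (k + n)).trans (le_of_eq ?_)
      rw [← pow_add]; congr 1; ring
    · have h2 := (summable_nat_add_iff n).2 (summable_wt x.1 x.2)
      exact h2
  refine h1.trans ?_
  rw [tsum_mul_left, tsum_half, mul_one]

end Vale.Agent.P113
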