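import Vale.Agent.P113.Flow

/-! The force compiler. -/

namespace Vale.Agent.P113

open MeasureTheory Set Filter
open scoped ContDiff Topology

/-- the velocity with which the word is fed in -/
noncomputable def cw (c₁ c₂ : ℕ) (w : List ℕ) : ℝ :=
  (c₁ : ℝ) / (c₂ + 1) * (1 / 2) ^ (Encodable.encode w)

/-- queries: component, orders, time and point -/
abbrev Query := Fin 3 × (ℕ × ℕ × ℕ × ℕ) × ((ℕ × ℕ × ℕ) × (ℕ × ℕ × ℕ) × (ℕ × ℕ × ℕ) × (ℕ × ℕ × ℕ))
  × ℕ

/-- inputs of the universal program -/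
abbrev Inp := (Machine × List ℕ) × Query

/-- truncated `phi` at rational times -/
noncomputable def ph (m : ℕ) (q : ℕ × ℕ × ℕ) : ℝ :=
  if decide (q.1 < q.2.1 + q.2.2 + 1) = true then Pe (phi m 0 1) (rat q) else 0

lemma ph_eq (m : ℕ) (q : ℕ × ℕ × ℕ) (h0 : 0 ≤ rat q) : ph m q = phi m 0 1 (rat q) :=
  phi_time_eq m q h0

/-- the values of the mixed derivatives -/
noncomputable def val (ν : ℝ) (c₁ c₂ : ℕ) (z : Inp) : ℝ :=
  if decide (z.2.1.val = 0) = true then
    (if decide (z.2.2.1.2.2.2 = 0) = true then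
      (if decide (z.2.2.1.2.1 = 0) = true then
        (Pe (phi (z.2.2.1.1 + 1) 0 1) (rat z.2.2.2.1.1) - ph (z.2.2.1.1 + 1) z.2.2.2.1.1) *
          G z.1.1 z.2.2.1.2.2.1 (rat z.2.2.2.1.2.2.1) -
        ν * ((Pe (phi z.2.2.1.1 0 1) (rat z.2.2.2.1.1) - ph z.2.2.1.1 z.2.2.2.1.1) *
          G z.1.1 (z.2.2.1.2.2.1 + 2) (rat z.2.2.2.1.2.2.1))
      else 0)
    else 0)
  else (if decide (z.2.1.val = 1) = true then
    (if decide (z.2.2.1.2.2.2 = 0) = true then
      (if decide (z.2.2.1.2.2.1 = 0) = true then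
        (if decide (z.2.2.1.2.1 = 0) = true then
          cw c₁ c₂ z.1.2 * ph (z.2.2.1.1 + 1) z.2.2.2.1.1
        else 0)
      else 0)
    else 0)
  else 0)

lemma CR_val (ν : ℝ) (hν : ComputableReal ν) (c₁ c₂ : ℕ) : CR (val ν c₁ c₂) := by
  -- projections
  have hM : Computable (fun z : Inp => z.1.1) := Computable.fst.comp Computable.fst
  have hw : Computable (fun z : Inp => z.1.2) := Computable.snd.comp Computable.fst
  have hq : Computable (fun z : Inp => z.2) := Computable.snd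
  have hi : Computable (fun z : Inp => z.2.1) := Computable.fst.comp hq
  have hi' : Computable (fun z : Inp => z.2.1.val) := (Primrec.fin_val.to_comp).comp hi
  have hr : Computable (fun z : Inp => z.2.2) := Computable.snd.comp hq
  have ho : Computable (fun z : Inp => z.2.2.1) := Computable.fst.comp hr
  have ha : Computable (fun z : Inp => z.2.2.1.1) := Computable.fst.comp ho
  have ho1 : Computable (fun z : Inp => z.2.2.1.2) := Computable.snd.comp ho
  have hb0 : Computable (fun z : Inp => z.2.2.1.2.1) := Computable.fst.comp ho1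
  have ho2 : Computable (fun z : Inp => z.2.2.1.2.2) := Computable.snd.comp ho1
  have hb1 : Computable (fun z : Inp => z.2.2.1.2.2.1) := Computable.fst.comp ho2
  have hb2 : Computable (fun z : Inp => z.2.2.1.2.2.2) := Computable.snd.comp ho2
  have hr1 : Computable (fun z : Inp => z.2.2.2) := Computable.snd.comp hr
  have hp : Computable (fun z : Inp => z.2.2.2.1) := Computable.fst.comp hr1
  have ht : Computable (fun z : Inp => z.2.2.2.1.1) := Computable.fst.comp hp
  have hp1 : Computable (fun z : Inp => z.2.2.2.1.2) := Computable.snd.comp hp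
  have hp2 : Computable (fun z : Inp => z.2.2.2.1.2.2) := Computable.snd.comp hp1
  have hx1 : Computable (fun z : Inp => z.2.2.2.1.2.2.1) := Computable.fst.comp hp2
  have ha1 : Computable (fun z : Inp => z.2.2.1.1 + 1) := c_add ha (c_const 1)
  have hb12 : Computable (fun z : Inp => z.2.2.1.2.2.1 + 2) := c_add hb1 (c_const 2)
  -- real numbers
  have P1 : CR (fun z : Inp => Pe (phi (z.2.2.1.1 + 1) 0 1) (rat z.2.2.2.1.1)) :=
    CR_Pe_time ha1 ht
  have P0 : CR (fun z : Inp => Pe (phi z.2.2.1.1 0 1) (rat z.2.2.2.1.1)) :=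
    CR_Pe_time ha ht
  have Q1 : CR (fun z : Inp => ph (z.2.2.1.1 + 1) z.2.2.2.1.1) := CR_phi_time ha1 ht
  have Q0 : CR (fun z : Inp => ph z.2.2.1.1 z.2.2.2.1.1) := CR_phi_time ha ht
  have G1 : CR (fun z : Inp => G z.1.1 z.2.2.1.2.2.1 (rat z.2.2.2.1.2.2.1)) := CR_G hM hb1 hx1
  have G2 : CR (fun z : Inp => G z.1.1 (z.2.2.1.2.2.1 + 2) (rat z.2.2.2.1.2.2.1)) :=
    CR_G hM hb12 hx1
  have N : CR (fun _ : Inp => ν) := CR.of_computableReal hν
  have W : CR (fun z : Inp => cw c₁ c₂ z.1.2) := by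
    have w1 : CR (fun _ : Inp => (c₁ : ℝ) / (c₂ + 1)) := CR.frac (c_const c₁) (c_const c₂)
    have w2 : CR (fun z : Inp => (1 / 2 : ℝ) ^ (Encodable.encode z.1.2)) := by
      have h1 : Computable (fun z : Inp => Encodable.encode z.1.2) := Computable.encode.comp hw
      refine (CR.fracPow (A := fun _ => 1) (D := fun _ => 1) (c_const 1) (c_const 1) h1).of_eq
        (fun q => ?_)
      norm_num
    exact w1.mul w2
  have Z : CR (fun _ : Inp => (0:ℝ)) := CR.zero
  have A := ((P1.sub Q1).mul G1).sub (N.mul ((P0.sub Q0).mul G2))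
  have A1 := CR.ite (c_eq hb2 (c_const 0)) (CR.ite (c_eq hb0 (c_const 0)) A Z) Z
  have B := W.mul Q1
  have B1 := CR.ite (c_eq hb2 (c_const 0)) (CR.ite (c_eq hb1 (c_const 0))
    (CR.ite (c_eq hb0 (c_const 0)) B Z) Z) Z
  exact CR.ite (c_eq hi' (c_const 0)) A1 (CR.ite (c_eq hi' (c_const 1)) B1 Z)

lemma val_eq (ν : ℝ) (c₁ c₂ : ℕ) (M : Machine) (w : List ℕ) (i : Fin 3) (a b₀ b₁ b₂ : ℕ)
    (t x₀ x₁ x₂ : ℕ × ℕ × ℕ) (n : ℕ) (ht : 0 ≤ rat t) :
    val ν c₁ c₂ ((M, w), (i, (a, b₀, b₁, b₂), (t, x₀, x₁, x₂), n)) =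
      mixed a b₀ b₁ b₂ (fun s y => force ν (cw c₁ c₂ w) M s y i) (rat t)
        ![rat x₀, rat x₁, rat x₂] := by
  unfold val
  simp only [decide_eq_true_eq]
  rw [ph_eq _ _ ht, ph_eq _ _ ht]
  fin_cases i
  · have h1 : (fun s y => force ν (cw c₁ c₂ w) M s y ((fun i => i) ⟨0, by omega⟩)) =
        Fm ν M 0 0 := rfl
    simp only [h1, mixed_Fm, if_true]
    by_cases h2 : b₂ = 0
    · by_cases h0 : b₀ = 0
      · simp only [h2, h0, if_true]
        rfl
      · simp only [h2, h0, if_true, if_false]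
    · simp only [h2, if_false]
  · have h1 : (fun s y => force ν (cw c₁ c₂ w) M s y ((fun i => i) ⟨1, by omega⟩)) =
        Tm (cw c₁ c₂ w) 1 := rfl
    simp only [h1, mixed_Tm, one_ne_zero, if_false, if_true]
    by_cases h2 : b₂ = 0
    · by_cases h1 : b₁ = 0
      · by_cases h0 : b₀ = 0
        · simp only [h2, h0, h1, if_true]
          rfl
        · simp only [h2, h1, h0, if_true, if_false]
      · simp only [h2, h1, if_true, if_false]
    · simp only [h2, if_false]
  · have h1 : (fun s y => force ν (cw c₁ c₂ w) M s y ((fun i => i) ⟨2, by omega⟩)) =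
        fun _ _ => 0 := rfl
    simp only [h1, mixed_zero]
    simp

lemma exists_program {α β : Type} [Primcodable α] [Primcodable β] (f : α → β)
    (hf : Computable f) : ∃ c : Nat.Partrec.Code, ∀ a : α,
      c.eval (Encodable.encode a) = Part.some (Encodable.encode (f a)) := by
  obtain ⟨c, hc⟩ := Nat.Partrec.Code.exists_code.1 hf
  refine ⟨c, fun a => ?_⟩
  rw [hc]
  simp

theorem exists_compiler (ν : ℝ) (hν : ComputableReal ν) (c₁ c₂ : ℕ) :
    ∃ prog : Machine × List ℕ → Nat.Partrec.Code,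
      IsForceCompiler prog (fun M w => force ν (cw c₁ c₂ w) M) 1 := by
  obtain ⟨q, hq, H⟩ := CR_val ν hν c₁ c₂
  obtain ⟨c, hc⟩ := exists_program (α := Inp)
    (fun z : Inp => q (z, z.2.2.2.2))
    (hq.comp (Computable.id.pair (Computable.snd.comp (Computable.snd.comp
      (Computable.snd.comp Computable.snd)))))
  refine ⟨fun z => Nat.Partrec.Code.curry c (Encodable.encode z), ?_, ?_, ?_, ?_, ?_, ?_⟩
  · exact Nat.Partrec.Code.primrec₂_curry.to_comp.comp (c_const c) Computable.encode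
  · intro M w
    exact (smoothForce_force ν _ M).smooth
  · intro M w
    exact (smoothForce_force ν _ M).torus
  · intro M w i a b₀ b₁ b₂ t x₀ x₁ x₂ n ht
    refine ⟨q (((M, w), (i, (a, b₀, b₁, b₂), (t, x₀, x₁, x₂), n)), n), ?_, ?_⟩
    · rw [Nat.Partrec.Code.eval_curry]
      have h1 := hc ((M, w), (i, (a, b₀, b₁, b₂), (t, x₀, x₁, x₂), n))
      rw [Encodable.encode_prod_val] at h1
      rw [h1]
      exact Part.mem_some _
    · change |mixed a b₀ b₁ b₂ (fun s y => force ν (cw c₁ c₂ w) M s y i) (rat t)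
        ![rat x₀, rat x₁, rat x₂] - _| ≤ _
      rw [← val_eq ν c₁ c₂ M w i a b₀ b₁ b₂ t x₀ x₁ x₂ n ht]
      refine (H _ n).trans ?_
      rw [one_div, one_div, inv_pow]
      apply inv_anti₀ (by positivity)
      have : n + 1 ≤ 2 ^ n := Nat.lt_two_pow_self
      exact_mod_cast this
  · intro M
    refine ⟨1, one_pos, fun w t x ht => ?_⟩
    unfold force Fm
    rw [Dt_add_one 1 ht, Dt_add_one 0 ht, phi_of_ge_right 1 ht,
      phi_of_ge_right 1 (by linarith : (1:ℝ) ≤ t + 1)]
  · intro M w w' t x ht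
    unfold force
    rw [phi_of_ge_right 1 ht, mul_zero, mul_zero]

end Vale.Agent.P113
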