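import Mathlib

/-! Definitions for problem P113: forced Navier-Stokes flows on the flat three-torus, Turing
machines, effective forces and force compilers. -/

namespace Vale.Agent.P113

open MeasureTheory Set
open scoped ContDiff

/-- Points of `ℝ³`.  Functions on the flat torus `(ℝ/ℤ)³` are represented by functions on `ℝ³`
which are invariant under integer translations. -/
abbrev V3 := Fin 3 → ℝ

/-- The flat torus `(ℝ/ℤ)³`. -/
abbrev T3 := Fin 3 → UnitAddCircle

/-- The projection `ℝ³ → (ℝ/ℤ)³`. -/
def proj (x : V3) : T3 := fun i => (x i : UnitAddCircle)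

/-- Invariance under integer translations: `g` is a function on the torus. -/
def OnTorus {E : Type} (g : V3 → E) : Prop :=
  ∀ x (k : Fin 3 → ℤ), g (x + fun i => (k i : ℝ)) = g x

/-! ### Turing machines -/

/-- A deterministic one-tape Turing machine: the finite list of its halting states and the finite
list of its instructions `(q, a, q', a', d)`, meaning: in state `q` reading symbol `a`, write
`a'`, move in direction `d` (`some true` is right, `some false` is left, `none` is stay) and go
to state `q'`.  States and symbols are natural numbers, the initial state is `0` and the blank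
symbol is `0`.  If several instructions apply the first one in the list is used. -/
abbrev Machine := List ℕ × List (ℕ × ℕ × ℕ × ℕ × Option Bool)

/-- A configuration: the state, the tape to the left of the head (nearest cell first) and the
tape from the scanned cell to the right.  All cells beyond the two lists are blank. -/
abbrev Config := ℕ × List ℕ × List ℕ

/-- The effect of the instruction `e` on the configuration `c`. -/
def act (c : Config) (e : ℕ × ℕ × ℕ × ℕ × Option Bool) : Config :=
  e.2.2.2.2.elim (e.2.2.1, c.2.1, e.2.2.2.1 :: c.2.2.tail)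
    (fun right => cond right (e.2.2.1, e.2.2.2.1 :: c.2.1, c.2.2.tail)
      (e.2.2.1, c.2.1.tail, c.2.1.headI :: e.2.2.2.1 :: c.2.2.tail))

/-- One step of the machine.  If no instruction applies, the configuration does not change. -/
def step (M : Machine) (c : Config) : Config :=
  ((M.2.find? (fun e => e.1 == c.1 && e.2.1 == c.2.2.headI)).map (act c)).getD c

/-- `M` halts on `w`: started in state `0` on the tape carrying `w` (head on its first cell) and
blank elsewhere, the machine reaches a halting state after finitely many (possibly zero)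
steps. -/
def HaltsOn (M : Machine) (w : List ℕ) : Prop :=
  ∃ n : ℕ, ((step M)^[n] (0, [], w)).1 ∈ M.1

/-! ### Effective forces and force compilers -/

/-- Rational numbers are given to and returned by programs as triples `(a, b, c)` of natural
numbers, which stand for `(a - b) / (c + 1)`. -/
noncomputable def rat (q : ℕ × ℕ × ℕ) : ℝ := ((q.1 : ℝ) - q.2.1) / (q.2.2 + 1)

/-- A computable real number: a computable function gives a rational approximation within
`1 / (n + 1)` for every `n`. -/
def ComputableReal (ν : ℝ) : Prop :=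
  ∃ q : ℕ → ℕ × ℕ × ℕ, Computable q ∧ ∀ n : ℕ, |ν - rat (q n)| ≤ 1 / ((n : ℝ) + 1)

/-- The partial derivative `∂ᵢ g` of a function on `ℝ³`. -/
noncomputable def pd (i : Fin 3) (g : V3 → ℝ) : V3 → ℝ :=
  fun x => fderiv ℝ g x (Pi.single i 1)

/-- The time derivative of a function of time and space. -/
noncomputable def dt (F : ℝ → V3 → ℝ) : ℝ → V3 → ℝ :=
  fun t x => deriv (fun s => F s x) t

/-- The space derivative in direction `i` of a function of time and space. -/
noncomputable def dx (i : Fin 3) (F : ℝ → V3 → ℝ) : ℝ → V3 → ℝ :=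
  fun t => pd i (F t)

/-- The mixed derivative `∂ₜᵃ ∂₀^b₀ ∂₁^b₁ ∂₂^b₂ F`. -/
noncomputable def mixed (a b₀ b₁ b₂ : ℕ) (F : ℝ → V3 → ℝ) : ℝ → V3 → ℝ :=
  dt^[a] ((dx 0)^[b₀] ((dx 1)^[b₁] ((dx 2)^[b₂] F)))

/-- The component `i` of a vector field. -/
def comp (i : Fin 3) (F : ℝ → V3 → V3) : ℝ → V3 → ℝ := fun t x => F t x i

/-- Joint smoothness of a time dependent vector field. -/
def Smooth (f : ℝ → V3 → V3) : Prop := ContDiff ℝ ∞ (fun q : ℝ × V3 => f q.1 q.2)

/-- Joint smoothness of a time dependent function. -/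
def SmoothFun (p : ℝ → V3 → ℝ) : Prop := ContDiff ℝ ∞ (fun q : ℝ × V3 => p q.1 q.2)

/-- The program `c` witnesses that the force `f` is effective: given a component `i`, the orders
of differentiation, a rational time `t ≥ 0`, a rational point and `n`, it halts and returns a
rational number which approximates that mixed derivative of that component within
`1 / (n + 1)`. -/
def Effective (c : Nat.Partrec.Code) (f : ℝ → V3 → V3) : Prop :=
  ∀ (i : Fin 3) (a b₀ b₁ b₂ : ℕ) (t x₀ x₁ x₂ : ℕ × ℕ × ℕ) (n : ℕ), 0 ≤ rat t →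
    ∃ q : ℕ × ℕ × ℕ,
      Encodable.encode q ∈
        c.eval (Encodable.encode (i, (a, b₀, b₁, b₂), (t, x₀, x₁, x₂), n)) ∧
      |mixed a b₀ b₁ b₂ (comp i f) (rat t) ![rat x₀, rat x₁, rat x₂] - rat q|
        ≤ 1 / ((n : ℝ) + 1)

/-- `prog` is an algorithm which on every pair `(M, w)` halts and outputs a program for the
effective smooth force `f M w`; for `t ≥ T₀` this force is periodic in time and depends on `M`
only. -/
structure IsForceCompiler (prog : Machine × List ℕ → Nat.Partrec.Code)
    (f : Machine → List ℕ → ℝ → V3 → V3) (T₀ : ℝ) : Prop where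
  computable : Computable prog
  smooth : ∀ M w, Smooth (f M w)
  torus : ∀ M w t, OnTorus (f M w t)
  effective : ∀ M w, Effective (prog (M, w)) (f M w)
  periodic : ∀ M, ∃ P : ℝ, 0 < P ∧ ∀ w t x, T₀ ≤ t → f M w (t + P) x = f M w t x
  machine_only : ∀ M w w' t x, T₀ ≤ t → f M w t x = f M w' t x

/-! ### Navier-Stokes -/

/-- The time derivative within `[0, T]`. -/
noncomputable def dtw (T : ℝ) (F : ℝ → V3 → ℝ) : ℝ → V3 → ℝ :=
  fun t x => derivWithin (fun s => F s x) (Icc 0 T) t

/-- Joint continuity on `[0, T] × (ℝ/ℤ)³`. -/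
def ContOn (T : ℝ) (F : ℝ → V3 → ℝ) : Prop :=
  ContinuousOn (fun q : ℝ × V3 => F q.1 q.2) (Icc 0 T ×ˢ univ)

/-- `(u, p)` is a classical solution on `[0, T] × (ℝ/ℤ)³` of the Navier-Stokes system with
viscosity `ν`, force `f` and zero initial velocity. -/
structure IsClassical (ν T : ℝ) (f : ℝ → V3 → V3) (u : ℝ → V3 → V3) (p : ℝ → V3 → ℝ) :
    Prop where
  torus : ∀ t ∈ Icc 0 T, OnTorus (u t) ∧ OnTorus (p t)
  space : ∀ t ∈ Icc 0 T, ∀ j, ContDiff ℝ 2 (comp j u t) ∧ ContDiff ℝ 1 (p t)
  time_u : ∀ t ∈ Icc 0 T, ∀ x j, DifferentiableWithinAt ℝ (fun s => u s x j) (Icc 0 T) t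
  cont_u : ∀ j, ContOn T (comp j u)
  cont_ut : ∀ j, ContOn T (dtw T (comp j u))
  cont_du : ∀ i j, ContOn T (dx i (comp j u))
  cont_ddu : ∀ i k j, ContOn T (dx i (dx k (comp j u)))
  cont_p : ContOn T p
  cont_dp : ∀ i, ContOn T (dx i p)
  mean_p : ∀ t ∈ Icc 0 T, ∫ x in Icc (0 : V3) 1, p t x = 0
  momentum : ∀ t ∈ Icc 0 T, ∀ x j,
    dtw T (comp j u) t x + ∑ i, u t x i * dx i (comp j u) t x
      = - dx j p t x + ν * ∑ i, dx i (dx i (comp j u)) t x + f t x j
  div_free : ∀ t ∈ Icc 0 T, ∀ x, ∑ i, dx i (comp i u) t x = 0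
  initial : ∀ x, u 0 x = 0

/-- `X` is the trajectory of the point `a` in the flow of the velocity field `u`. -/
def IsTrajectory (u : ℝ → V3 → V3) (a : V3) (X : ℝ → V3) : Prop :=
  X 0 = a ∧ ∀ t, 0 ≤ t → ∀ i, HasDerivWithinAt (fun s => X s i) (u t (X t) i) (Ici 0) t

end Vale.Agent.P113
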