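import Vale.Agent.P113.Old

/-! Calculus facts on the torus used in the uniqueness proof. -/

namespace Vale.Agent.P113

open MeasureTheory Set Filter
open scoped ContDiff Topology

/-- the unit cube -/
abbrev cube : Set V3 := Icc (0 : V3) 1

lemma isCompact_cube : IsCompact cube := isCompact_Icc

/-- invariance under integer translations -/
def Per (g : V3 → ℝ) : Prop := ∀ x (k : Fin 3 → ℤ), g (x + fun i => (k i : ℝ)) = g x

lemma integrableOn_cube {g : V3 → ℝ} (hg : Continuous g) : IntegrableOn g cube :=
  hg.continuousOn.integrableOn_compact isCompact_cube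

lemma continuous_pd {i : Fin 3} {g : V3 → ℝ} (hg : ContDiff ℝ 1 g) : Continuous (pd i g) := by
  unfold pd
  exact (hg.continuous_fderiv (by norm_num)).clm_apply continuous_const

lemma integral_pd_eq_zero (i : Fin 3) (g : V3 → ℝ) (hg : ContDiff ℝ 1 g) (hper : Per g) :
    ∫ x in cube, pd i g x = 0 := by
  have key := integral_divergence_of_hasFDerivAt_off_countable' (n := 2) (E := ℝ) (0 : V3) 1
    (by intro j; simp) (fun j x => if j = i then g x else 0)
    (fun j x => if j = i then fderiv ℝ g x else 0) ∅ countable_empty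
    (by
      intro j
      by_cases h : j = i
      · simp only [h, if_true]; exact hg.continuous.continuousOn
      · simp only [h, if_false]; exact continuousOn_const)
    (by
      intro x _ j
      by_cases h : j = i
      · simp only [h, if_true]
        exact (hg.differentiable (by norm_num) x).hasFDerivAt
      · simp only [h, if_false]; exact hasFDerivAt_const _ _)
    (by
      have : (fun x : V3 => ∑ j, (if j = i then fderiv ℝ g x else 0) (Pi.single j 1))
          = fun x => pd i g x := by
        funext x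
        rw [Finset.sum_eq_single i]
        · simp [pd]
        · intro b _ hb; simp [hb]
        · simp
      rw [this]
      exact integrableOn_cube (continuous_pd hg))
  have h1 : (fun x : V3 => ∑ j, (if j = i then fderiv ℝ g x else 0) (Pi.single j 1))
          = fun x => pd i g x := by
    funext x
    rw [Finset.sum_eq_single i]
    · simp [pd]
    · intro b _ hb; simp [hb]
    · simp
  rw [h1] at key
  rw [key]
  apply Finset.sum_eq_zero
  intro j _
  by_cases h : j = i
  · subst h
    simp only [if_true]
    rw [sub_eq_zero]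
    congr 1
    funext y
    have := hper (Fin.insertNth j ((0 : V3) j) y) (Pi.single j 1)
    rw [← this]
    congr 1
    funext l
    by_cases hl : l = j
    · subst hl; simp
    · obtain ⟨m, rfl⟩ := Fin.exists_succAbove_eq hl
      simp
  · simp [h]

/-- differentiation under the integral sign over the cube, in the form we need -/
lemma hasDerivAt_integral_cube {T : ℝ} {G G' : ℝ → V3 → ℝ}
    (hG : ContinuousOn (fun q : ℝ × V3 => G q.1 q.2) (Icc 0 T ×ˢ univ))
    (hG' : ContinuousOn (fun q : ℝ × V3 => G' q.1 q.2) (Icc 0 T ×ˢ univ))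
    (hd : ∀ t ∈ Icc 0 T, ∀ x, HasDerivWithinAt (fun s => G s x) (G' t x) (Icc 0 T) t)
    {t : ℝ} (ht : t ∈ Ioo 0 T) :
    HasDerivAt (fun s => ∫ x in cube, G s x) (∫ x in cube, G' t x) t := by
  have hcomp : IsCompact (Icc (0:ℝ) T ×ˢ cube) := isCompact_Icc.prod isCompact_cube
  obtain ⟨C, hC⟩ := hcomp.exists_bound_of_continuousOn (f := fun q : ℝ × V3 => G' q.1 q.2)
    (hG'.mono (prod_mono_right (subset_univ _)))
  have hslice : ∀ s ∈ Icc 0 T, Continuous (G s) := by
    intro s hs
    have : Continuous (fun x : V3 => ((s, x) : ℝ × V3)) := by fun_prop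
    have h2 := hG.comp_continuous this (fun x => ⟨hs, mem_univ _⟩)
    exact h2
  have hslice' : ∀ s ∈ Icc 0 T, Continuous (G' s) := by
    intro s hs
    have : Continuous (fun x : V3 => ((s, x) : ℝ × V3)) := by fun_prop
    have h2 := hG'.comp_continuous this (fun x => ⟨hs, mem_univ _⟩)
    exact h2
  have hnhds : Ioo 0 T ∈ 𝓝 t := Ioo_mem_nhds ht.1 ht.2
  refine (hasDerivAt_integral_of_dominated_loc_of_deriv_le (s := Ioo 0 T) (bound := fun _ => C)
    (F := G) (F' := G') (x₀ := t) (μ := volume.restrict cube) hnhds ?_ ?_ ?_ ?_ ?_ ?_).2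
  · filter_upwards [hnhds] with s hs
    exact (hslice s (Ioo_subset_Icc_self hs)).aestronglyMeasurable
  · exact integrableOn_cube (hslice t (Ioo_subset_Icc_self ht))
  · exact (hslice' t (Ioo_subset_Icc_self ht)).aestronglyMeasurable
  · refine (ae_restrict_mem measurableSet_Icc).mono ?_
    intro x hx s hs
    exact hC (s, x) ⟨Ioo_subset_Icc_self hs, hx⟩
  · exact integrableOn_cube continuous_const
  · refine Eventually.of_forall ?_
    intro x s hs
    exact (hd s (Ioo_subset_Icc_self hs) x).hasDerivAt (Icc_mem_nhds hs.1 hs.2)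

lemma continuousOn_integral_cube {T : ℝ} (hT : 0 ≤ T) {G : ℝ → V3 → ℝ}
    (hG : ContinuousOn (fun q : ℝ × V3 => G q.1 q.2) (Icc 0 T ×ˢ univ)) :
    ContinuousOn (fun s => ∫ x in cube, G s x) (Icc 0 T) := by
  have h1 : Continuous (Function.uncurry
      (fun (s : ℝ) (x : V3) => G (projIcc 0 T hT s : ℝ) x)) := by
    have : Continuous (fun q : ℝ × V3 => (((projIcc 0 T hT q.1 : ℝ), q.2) : ℝ × V3)) := by
      have := (continuous_projIcc (h := hT)).comp (continuous_fst (X := ℝ) (Y := V3))
      exact (continuous_subtype_val.comp this).prodMk continuous_snd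
    exact hG.comp_continuous this (fun q => ⟨(projIcc 0 T hT q.1).2, mem_univ _⟩)
  have h2 := continuous_parametric_integral_of_continuous (μ := volume) h1 isCompact_cube
  refine h2.continuousOn.congr ?_
  intro s hs
  simp only [projIcc_of_mem hT hs]

/-- Gronwall with zero initial value -/
lemma eq_zero_of_deriv_le {T C : ℝ} {E : ℝ → ℝ} {E' : ℝ → ℝ}
    (hc : ContinuousOn E (Icc 0 T)) (h0 : E 0 = 0) (hnn : ∀ t ∈ Icc 0 T, 0 ≤ E t)
    (hd : ∀ t ∈ Ioo 0 T, HasDerivAt E (E' t) t) (hle : ∀ t ∈ Ioo 0 T, E' t ≤ C * E t) :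
    ∀ t ∈ Icc 0 T, E t = 0 := by
  intro t ht
  have hT : 0 ≤ T := ht.1.trans ht.2
  have hderiv : ∀ s ∈ Ioo 0 T, HasDerivAt (fun s => E s * Real.exp (-C * s))
      (E' s * Real.exp (-C * s) + E s * (Real.exp (-C * s) * (-C))) s := by
    intro s hs
    have h1 : HasDerivAt (fun s : ℝ => Real.exp (-C * s)) (Real.exp (-C * s) * (-C)) s := by
      have := ((hasDerivAt_id s).const_mul (-C)).exp
      simpa using this
    exact (hd s hs).mul h1
  have hanti : AntitoneOn (fun s => E s * Real.exp (-C * s)) (Icc 0 T) := by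
    apply antitoneOn_of_deriv_nonpos (convex_Icc 0 T)
    · apply hc.mul
      fun_prop
    · rw [interior_Icc]
      intro s hs
      exact (hderiv s hs).differentiableAt.differentiableWithinAt
    · rw [interior_Icc]
      intro s hs
      rw [(hderiv s hs).deriv]
      have h2 := hle s hs
      have h3 := Real.exp_pos (-C * s)
      nlinarith [mul_le_mul_of_nonneg_right h2 h3.le]
  have h4 := hanti (left_mem_Icc.2 hT) ht ht.1
  simp only [h0, zero_mul] at h4
  have h5 := Real.exp_pos (-C * t)
  have h6 : E t ≤ 0 := by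
    by_contra hcon
    push Not at hcon
    have := mul_pos hcon h5
    linarith
  exact le_antisymm h6 (hnn t ht)

/-- a continuous function vanishing a.e. on the cube and invariant vanishes -/
lemma eq_zero_of_integral_eq_zero {g : V3 → ℝ} (hg : Continuous g) (hnn : ∀ x, 0 ≤ g x)
    (hper : Per g) (hint : ∫ x in cube, g x = 0) : ∀ x, g x = 0 := by
  have h1 := (setIntegral_eq_zero_iff_of_nonneg_ae (s := cube) (μ := volume) (f := g)
    (Eventually.of_forall hnn) (integrableOn_cube hg)).1 hint
  have h2 : EqOn g 0 cube := by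
    refine Measure.eqOn_of_ae_eq h1 hg.continuousOn continuousOn_const ?_
    have h3 : cube = univ.pi (fun _ : Fin 3 => Icc (0:ℝ) 1) := by
      ext x
      simp [mem_Icc, Pi.le_def, forall_and]
    rw [h3, interior_pi_set finite_univ, closure_pi_set]
    intro x hx i hi
    have := hx i hi
    simp only [interior_Icc]
    rw [closure_Ioo (by norm_num)]
    exact this
  intro x
  have h4 := hper (fun i => Int.fract (x i)) (fun i => ⌊x i⌋)
  have h5 : ((fun i => Int.fract (x i)) + fun i => ((⌊x i⌋ : ℤ) : ℝ)) = x := by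
    funext i
    simp [Int.fract_add_floor]
  rw [h5] at h4
  rw [h4]
  apply h2
  constructor
  · intro i; exact Int.fract_nonneg _
  · intro i; exact (Int.fract_lt_one _).le

end Vale.Agent.P113
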