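import Vale.Agent.P113.Energy1

/-! The energy estimate and uniqueness of classical solutions. -/

namespace Vale.Agent.P113

open MeasureTheory Set Filter
open scoped ContDiff Topology

lemma pd_mul {i : Fin 3} {a b : V3 → ℝ} {x : V3} (ha : DifferentiableAt ℝ a x)
    (hb : DifferentiableAt ℝ b x) :
    pd i (fun y => a y * b y) x = a x * pd i b x + b x * pd i a x := by
  unfold pd
  have h : HasFDerivAt (fun y => a y * b y) _ x := ha.hasFDerivAt.mul hb.hasFDerivAt
  rw [h.fderiv]
  simp

lemma pd_sub {i : Fin 3} {a b : V3 → ℝ} {x : V3} (ha : DifferentiableAt ℝ a x)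
    (hb : DifferentiableAt ℝ b x) :
    pd i (fun y => a y - b y) x = pd i a x - pd i b x := by
  unfold pd
  have h : HasFDerivAt (fun y => a y - b y) _ x := ha.hasFDerivAt.sub hb.hasFDerivAt
  rw [h.fderiv]
  simp

lemma pd_add {i : Fin 3} {a b : V3 → ℝ} {x : V3} (ha : DifferentiableAt ℝ a x)
    (hb : DifferentiableAt ℝ b x) :
    pd i (fun y => a y + b y) x = pd i a x + pd i b x := by
  unfold pd
  have h : HasFDerivAt (fun y => a y + b y) _ x := ha.hasFDerivAt.add hb.hasFDerivAt
  rw [h.fderiv]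
  simp

lemma contDiff_pd {i : Fin 3} {g : V3 → ℝ} (hg : ContDiff ℝ 2 g) : ContDiff ℝ 1 (pd i g) := by
  unfold pd
  exact (hg.fderiv_right (m := 1) (by norm_num)).clm_apply contDiff_const

lemma Per.pd {i : Fin 3} {g : V3 → ℝ} (hg : Per g) : Per (pd i g) := by
  intro x k
  unfold Vale.Agent.P113.pd
  have h : (fun y : V3 => g (y + fun i => (k i : ℝ))) = g := by
    funext y; exact hg y k
  have h2 := fderiv_comp_add_right (f := g) (x := x) (𝕜 := ℝ) (fun i => (k i : ℝ))
  rw [← h2, h]

lemma Per.mul {a b : V3 → ℝ} (ha : Per a) (hb : Per b) : Per (fun x => a x * b x) := by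
  intro x k
  simp only [ha x k, hb x k]

lemma Per.sub {a b : V3 → ℝ} (ha : Per a) (hb : Per b) : Per (fun x => a x - b x) := by
  intro x k
  simp only [ha x k, hb x k]

lemma Per.add {a b : V3 → ℝ} (ha : Per a) (hb : Per b) : Per (fun x => a x + b x) := by
  intro x k
  simp only [ha x k, hb x k]

/-- The energy inequality at a fixed time. -/
lemma energy_ineq {ν L : ℝ} (hν : 0 < ν) (U V Wt : Fin 3 → V3 → ℝ) (q : V3 → ℝ)
    (hU : ∀ j, ContDiff ℝ 2 (U j)) (hV : ∀ j, ContDiff ℝ 2 (V j)) (hq : ContDiff ℝ 1 q)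
    (pU : ∀ j, Per (U j)) (pV : ∀ j, Per (V j)) (pq : Per q)
    (dU : ∀ x, ∑ i, pd i (U i) x = 0) (dV : ∀ x, ∑ i, pd i (V i) x = 0)
    (hL : ∀ i j x, |pd i (V j) x| ≤ L) (hWt : ∀ j, Continuous (Wt j))
    (heq : ∀ x j, Wt j x + ∑ i, (U i x * pd i (U j) x - V i x * pd i (V j) x)
      = - pd j q x + ν * ∑ i, pd i (pd i (fun y => U j y - V j y)) x) :
    ∫ x in cube, ∑ j, (U j x - V j x) * Wt j x
      ≤ 3 * L * ∫ x in cube, ∑ j, (U j x - V j x) ^ 2 := by
  obtain ⟨W, hW⟩ : ∃ W : Fin 3 → V3 → ℝ, W = fun j y => U j y - V j y := ⟨_, rfl⟩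
  have hWx : ∀ j x, U j x - V j x = W j x := fun j x => by rw [hW]
  have hWf : ∀ j, (fun y => U j y - V j y) = W j := fun j => by rw [hW]
  simp only [hWx]
  simp only [hWf] at heq
  have hWc : ∀ j, ContDiff ℝ 2 (W j) := fun j => by rw [← hWf]; exact (hU j).sub (hV j)
  have pW : ∀ j, Per (W j) := fun j => by rw [← hWf]; exact (pU j).sub (pV j)
  have c12 : ∀ {g : V3 → ℝ}, ContDiff ℝ 2 g → ContDiff ℝ 1 g := fun h => h.of_le (by norm_num)
  have dif2 : ∀ {g : V3 → ℝ}, ContDiff ℝ 2 g → ∀ x, DifferentiableAt ℝ g x :=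
    fun h x => h.differentiable (by norm_num) x
  have dif1 : ∀ {g : V3 → ℝ}, ContDiff ℝ 1 g → ∀ x, DifferentiableAt ℝ g x :=
    fun h x => h.differentiable (by norm_num) x
  have hpdW : ∀ i j x, pd i (W j) x = pd i (U j) x - pd i (V j) x :=
    fun i j x => by rw [← hWf]; exact pd_sub (dif2 (hU j) x) (dif2 (hV j) x)
  -- the square
  obtain ⟨S, hS⟩ : ∃ S : V3 → ℝ, S = fun y => W 0 y * W 0 y + W 1 y * W 1 y + W 2 y * W 2 y :=
    ⟨_, rfl⟩
  have hSc : ContDiff ℝ 1 S := by
    have := c12 (hWc 0); have := c12 (hWc 1); have := c12 (hWc 2)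
    simp only [hS]; fun_prop
  have pS : Per S := by rw [hS]; exact (((pW 0).mul (pW 0)).add ((pW 1).mul (pW 1))).add ((pW 2).mul (pW 2))
  have hpdS : ∀ i x, pd i S x = 2 * (W 0 x * pd i (W 0) x + W 1 x * pd i (W 1) x
      + W 2 x * pd i (W 2) x) := by
    intro i x
    have e0 := dif2 (hWc 0) x
    have e1 := dif2 (hWc 1) x
    have e2 := dif2 (hWc 2) x
    simp only [hS]
    rw [pd_add (a := fun y => W 0 y * W 0 y + W 1 y * W 1 y) (b := fun y => W 2 y * W 2 y)
      ((e0.mul e0).add (e1.mul e1)) (e2.mul e2), pd_add (a := fun y => W 0 y * W 0 y)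
      (b := fun y => W 1 y * W 1 y) (e0.mul e0) (e1.mul e1), pd_mul e0 e0, pd_mul e1 e1,
      pd_mul e2 e2]
    ring
  -- three families of exact derivatives
  have hA : ∀ i, ∫ x in cube, pd i (fun y => U i y * S y) x = 0 := fun i =>
    integral_pd_eq_zero i _ ((c12 (hU i)).mul hSc) ((pU i).mul pS)
  have hB : ∀ j, ∫ x in cube, pd j (fun y => W j y * q y) x = 0 := fun j =>
    integral_pd_eq_zero j _ ((c12 (hWc j)).mul hq) ((pW j).mul pq)
  have hD : ∀ i j, ∫ x in cube, pd i (fun y => W j y * pd i (W j) y) x = 0 := fun i j =>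
    integral_pd_eq_zero i _ ((c12 (hWc j)).mul (contDiff_pd (hWc j))) ((pW j).mul (pW j).pd)
  have cA : ∀ i, Continuous (fun x => pd i (fun y => U i y * S y) x) := fun i =>
    continuous_pd ((c12 (hU i)).mul hSc)
  have cB : ∀ j, Continuous (fun x => pd j (fun y => W j y * q y) x) := fun j =>
    continuous_pd ((c12 (hWc j)).mul hq)
  have cD : ∀ i j, Continuous (fun x => pd i (fun y => W j y * pd i (W j) y) x) := fun i j =>
    continuous_pd ((c12 (hWc j)).mul (contDiff_pd (hWc j)))
  have cW : ∀ j, Continuous (W j) := fun j => (hWc j).continuous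
  have cpW : ∀ i j, Continuous (pd i (W j)) := fun i j => continuous_pd (c12 (hWc j))
  have cpV : ∀ i j, Continuous (pd i (V j)) := fun i j => continuous_pd (c12 (hV j))
  -- pointwise identity
  have hpt : ∀ x, ∑ j, W j x * Wt j x =
      -(1/2) * (∑ i, pd i (fun y => U i y * S y) x)
      - (∑ i, ∑ j, W i x * W j x * pd i (V j) x)
      - (∑ j, pd j (fun y => W j y * q y) x)
      + ν * (∑ i, ∑ j, pd i (fun y => W j y * pd i (W j) y) x)
      - ν * (∑ i, ∑ j, (pd i (W j) x) ^ 2) := by
    intro x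
    have h1 : ∀ i, pd i (fun y => U i y * S y) x = U i x * pd i S x + S x * pd i (U i) x :=
      fun i => pd_mul (dif2 (hU i) x) (dif1 hSc x)
    have h2 : ∀ j, pd j (fun y => W j y * q y) x = W j x * pd j q x + q x * pd j (W j) x :=
      fun j => pd_mul (dif2 (hWc j) x) (dif1 hq x)
    have h3 : ∀ i j, pd i (fun y => W j y * pd i (W j) y) x =
        W j x * pd i (pd i (W j)) x + pd i (W j) x * pd i (W j) x :=
      fun i j => pd_mul (dif2 (hWc j) x) (dif1 (contDiff_pd (hWc j)) x)
    have e0 := heq x 0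
    have e1 := heq x 1
    have e2 := heq x 2
    have du := dU x
    have dv := dV x
    simp only [Fin.sum_univ_three] at e0 e1 e2 du dv ⊢
    simp only [h1, h2, h3]
    simp only [hpdS]
    have w0 : Wt 0 x = - pd 0 q x + ν * (pd 0 (pd 0 (W 0)) x + pd 1 (pd 1 (W 0)) x
      + pd 2 (pd 2 (W 0)) x) - (U 0 x * pd 0 (U 0) x - V 0 x * pd 0 (V 0) x
      + (U 1 x * pd 1 (U 0) x - V 1 x * pd 1 (V 0) x)
      + (U 2 x * pd 2 (U 0) x - V 2 x * pd 2 (V 0) x)) := by linarith
    have w1 : Wt 1 x = - pd 1 q x + ν * (pd 0 (pd 0 (W 1)) x + pd 1 (pd 1 (W 1)) x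
      + pd 2 (pd 2 (W 1)) x) - (U 0 x * pd 0 (U 1) x - V 0 x * pd 0 (V 1) x
      + (U 1 x * pd 1 (U 1) x - V 1 x * pd 1 (V 1) x)
      + (U 2 x * pd 2 (U 1) x - V 2 x * pd 2 (V 1) x)) := by linarith
    have w2 : Wt 2 x = - pd 2 q x + ν * (pd 0 (pd 0 (W 2)) x + pd 1 (pd 1 (W 2)) x
      + pd 2 (pd 2 (W 2)) x) - (U 0 x * pd 0 (U 2) x - V 0 x * pd 0 (V 2) x
      + (U 1 x * pd 1 (U 2) x - V 1 x * pd 1 (V 2) x)
      + (U 2 x * pd 2 (U 2) x - V 2 x * pd 2 (V 2) x)) := by linarith
    have u2 : pd 2 (U 2) x = - pd 0 (U 0) x - pd 1 (U 1) x := by linarith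
    have v2 : pd 2 (V 2) x = - pd 0 (V 0) x - pd 1 (V 1) x := by linarith
    have hSx : S x = W 0 x * W 0 x + W 1 x * W 1 x + W 2 x * W 2 x := by rw [hS]
    rw [w0, w1, w2, hSx]
    simp only [hpdW]
    rw [u2, v2]
    simp only [← hWx]
    ring
  have hptbound : ∀ x, -(∑ i, ∑ j, W i x * W j x * pd i (V j) x) ≤
      3 * L * ∑ j, (W j x) ^ 2 := by
    intro x
    have hb : ∀ i j, -(W i x * W j x * pd i (V j) x) ≤ L * ((W i x)^2 + (W j x)^2) / 2 := by
      intro i j
      have h1 := hL i j x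
      have h2 : |W i x * W j x| ≤ ((W i x)^2 + (W j x)^2) / 2 := by
        rw [abs_le]; constructor <;> nlinarith [sq_nonneg (W i x + W j x), sq_nonneg (W i x - W j x)]
      have h3 : |W i x * W j x * pd i (V j) x| ≤ ((W i x)^2 + (W j x)^2) / 2 * L := by
        rw [abs_mul]
        exact mul_le_mul h2 h1 (abs_nonneg _) (by positivity)
      have h4 := neg_abs_le (W i x * W j x * pd i (V j) x)
      linarith
    simp only [Fin.sum_univ_three]
    have := hb 0 0; have := hb 0 1; have := hb 0 2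
    have := hb 1 0; have := hb 1 1; have := hb 1 2
    have := hb 2 0; have := hb 2 1; have := hb 2 2
    linarith
  -- integrate
  have cquad : Continuous (fun x => ∑ i, ∑ j, W i x * W j x * pd i (V j) x) := by
    fun_prop
  have csq : Continuous (fun x => ∑ j, (W j x) ^ 2) := by fun_prop
  have cR : Continuous (fun x => -(1/2) * (∑ i, pd i (fun y => U i y * S y) x)
      - (∑ j, pd j (fun y => W j y * q y) x)
      + ν * (∑ i, ∑ j, pd i (fun y => W j y * pd i (W j) y) x)) := by
    have := cA; have := cB; have := cD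
    fun_prop
  have hRint : ∫ x in cube, (-(1/2) * (∑ i, pd i (fun y => U i y * S y) x)
      - (∑ j, pd j (fun y => W j y * q y) x)
      + ν * (∑ i, ∑ j, pd i (fun y => W j y * pd i (W j) y) x)) = 0 := by
    have i1 : Integrable (fun x => -(1/2:ℝ) * (∑ i, pd i (fun y => U i y * S y) x))
        (volume.restrict cube) := by
      apply integrableOn_cube
      have := cA; fun_prop
    have i2 : Integrable (fun x => (∑ j, pd j (fun y => W j y * q y) x))
        (volume.restrict cube) := by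
      apply integrableOn_cube
      have := cB; fun_prop
    have i3 : Integrable (fun x => ν * (∑ i, ∑ j, pd i (fun y => W j y * pd i (W j) y) x))
        (volume.restrict cube) := by
      apply integrableOn_cube
      have := cD; fun_prop
    have i12 : Integrable (fun x => -(1/2:ℝ) * (∑ i, pd i (fun y => U i y * S y) x)
        - (∑ j, pd j (fun y => W j y * q y) x)) (volume.restrict cube) := i1.sub i2
    rw [integral_add i12 i3, integral_sub i1 i2, integral_const_mul, integral_const_mul,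
      integral_finsetSum _ (fun i _ => integrableOn_cube (cA i)),
      integral_finsetSum _ (fun i _ => integrableOn_cube (cB i)),
      integral_finsetSum]
    · rw [Finset.sum_eq_zero (fun i _ => hA i), Finset.sum_eq_zero (fun i _ => hB i)]
      have : ∀ i ∈ (Finset.univ : Finset (Fin 3)),
          ∫ x in cube, ∑ j, pd i (fun y => W j y * pd i (W j) y) x = 0 := by
        intro i _
        rw [integral_finsetSum _ (fun j _ => integrableOn_cube (cD i j))]
        exact Finset.sum_eq_zero (fun j _ => hD i j)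
      rw [Finset.sum_eq_zero this]
      ring
    · intro i _
      exact integrableOn_cube (continuous_finsetSum _ (fun j _ => cD i j))
  have hmono : ∫ x in cube, ∑ j, W j x * Wt j x ≤
      ∫ x in cube, ((-(1/2) * (∑ i, pd i (fun y => U i y * S y) x)
      - (∑ j, pd j (fun y => W j y * q y) x)
      + ν * (∑ i, ∑ j, pd i (fun y => W j y * pd i (W j) y) x))
      + 3 * L * ∑ j, (W j x) ^ 2) := by
    apply setIntegral_mono_on
    · exact integrableOn_cube (continuous_finsetSum _ (fun j _ => (cW j).mul (hWt j)))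
    · exact integrableOn_cube (cR.add (continuous_const.mul csq))
    · exact measurableSet_Icc
    · intro x _
      rw [hpt x]
      have h1 := hptbound x
      have h2 : 0 ≤ ν * (∑ i, ∑ j, (pd i (W j) x) ^ 2) := by positivity
      linarith
  have i5 : Integrable (fun x => 3 * L * ∑ j, (W j x) ^ 2) (volume.restrict cube) :=
    integrableOn_cube (continuous_const.mul csq)
  rw [integral_add (integrableOn_cube cR) i5, hRint, zero_add, integral_const_mul] at hmono
  exact hmono

end Vale.Agent.P113
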