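import Vale.Agent.P113.Energy2

/-! Uniqueness of classical solutions. -/

namespace Vale.Agent.P113

open MeasureTheory Set Filter
open scoped ContDiff Topology

lemma comp_hasDerivWithinAt {ν T : ℝ} {f u : ℝ → V3 → V3} {p : ℝ → V3 → ℝ}
    (h : IsClassicalO ν T f u p) {t : ℝ} (ht : t ∈ Icc 0 T) (x : V3) (j : Fin 3) :
    HasDerivWithinAt (fun s => u s x j)
      (derivWithin (fun s => u s x) (Icc 0 T) t j) (Icc 0 T) t :=
  hasDerivWithinAt_pi.1 (h.time_u t ht x).hasDerivWithinAt j

lemma comp_derivWithin {ν T : ℝ} (hT : 0 < T) {f u : ℝ → V3 → V3} {p : ℝ → V3 → ℝ}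
    (h : IsClassicalO ν T f u p) {t : ℝ} (ht : t ∈ Icc 0 T) (x : V3) (j : Fin 3) :
    derivWithin (fun s => u s x j) (Icc 0 T) t
      = derivWithin (fun s => u s x) (Icc 0 T) t j :=
  (comp_hasDerivWithinAt h ht x j).derivWithin (uniqueDiffOn_Icc hT t ht)

lemma slice_continuous {T : ℝ} {E : Type*} [TopologicalSpace E] {G : ℝ × V3 → E}
    (hG : ContinuousOn G (Icc 0 T ×ˢ univ)) {t : ℝ} (ht : t ∈ Icc 0 T) :
    Continuous (fun x : V3 => G (t, x)) := by
  have : Continuous (fun x : V3 => ((t, x) : ℝ × V3)) := by fun_prop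
  exact hG.comp_continuous this (fun x => ⟨ht, mem_univ _⟩)

lemma exists_bound {ν T : ℝ} {f u : ℝ → V3 → V3} {p : ℝ → V3 → ℝ}
    (h : IsClassicalO ν T f u p) :
    ∃ L : ℝ, ∀ t ∈ Icc 0 T, ∀ i j x, |pd i (fun y => u t y j) x| ≤ L := by
  have hcomp : IsCompact (Icc (0:ℝ) T ×ˢ cube) := isCompact_Icc.prod isCompact_cube
  have h1 : ∀ i j : Fin 3, ∃ C, ∀ q ∈ Icc (0:ℝ) T ×ˢ cube,
      ‖pd i (fun y => u q.1 y j) q.2‖ ≤ C := fun i j =>
    hcomp.exists_bound_of_continuousOn ((h.cont_du i j).mono (prod_mono_right (subset_univ _)))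
  choose C hC using h1
  refine ⟨∑ i, ∑ j, |C i j|, ?_⟩
  intro t ht i j x
  have hper : Per (pd i (fun y => u t y j)) := by
    apply Per.pd
    intro y k
    simp only [h.torus_u t ht y k]
  have h4 := hper (fun i => Int.fract (x i)) (fun i => ⌊x i⌋)
  have h5 : ((fun i => Int.fract (x i)) + fun i => ((⌊x i⌋ : ℤ) : ℝ)) = x := by
    funext i
    simp [Int.fract_add_floor]
  rw [h5] at h4
  rw [h4]
  have h6 := hC i j (t, fun i => Int.fract (x i))
    ⟨ht, fun i => Int.fract_nonneg _, fun i => (Int.fract_lt_one _).le⟩
  rw [Real.norm_eq_abs] at h6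
  refine h6.trans ((le_abs_self _).trans ?_)
  refine (Finset.single_le_sum (f := fun j => |C i j|) (fun _ _ => abs_nonneg _)
    (Finset.mem_univ j)).trans ?_
  exact Finset.single_le_sum (f := fun i => ∑ j, |C i j|)
    (fun _ _ => Finset.sum_nonneg fun _ _ => abs_nonneg _) (Finset.mem_univ i)

lemma velocity_unique {ν T : ℝ} (hν : 0 < ν) (hT : 0 < T) {f u u' : ℝ → V3 → V3}
    {p p' : ℝ → V3 → ℝ} (h : IsClassicalO ν T f u p) (h' : IsClassicalO ν T f u' p') :
    ∀ t ∈ Icc 0 T, ∀ x, u' t x = u t x := by
  obtain ⟨L, hL⟩ := exists_bound h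
  -- continuity facts
  have cu : ∀ j, ContinuousOn (fun q : ℝ × V3 => u q.1 q.2 j) (Icc 0 T ×ˢ univ) := fun j =>
    (continuous_apply j).comp_continuousOn h.cont_u
  have cu' : ∀ j, ContinuousOn (fun q : ℝ × V3 => u' q.1 q.2 j) (Icc 0 T ×ˢ univ) := fun j =>
    (continuous_apply j).comp_continuousOn h'.cont_u
  have ct : ∀ j, ContinuousOn (fun q : ℝ × V3 => derivWithin (fun s => u s q.2) (Icc 0 T) q.1 j)
      (Icc 0 T ×ˢ univ) := fun j => (continuous_apply j).comp_continuousOn h.cont_ut
  have ct' : ∀ j, ContinuousOn
      (fun q : ℝ × V3 => derivWithin (fun s => u' s q.2) (Icc 0 T) q.1 j)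
      (Icc 0 T ×ˢ univ) := fun j => (continuous_apply j).comp_continuousOn h'.cont_ut
  set Wt : ℝ → Fin 3 → V3 → ℝ := fun t j x =>
    derivWithin (fun s => u' s x) (Icc 0 T) t j - derivWithin (fun s => u s x) (Icc 0 T) t j
    with hWt
  set G : ℝ → V3 → ℝ := fun t x => ∑ j, (u' t x j - u t x j) ^ 2 with hG
  set G' : ℝ → V3 → ℝ := fun t x => ∑ j, 2 * (u' t x j - u t x j) * Wt t j x with hG'
  have cG : ContinuousOn (fun q : ℝ × V3 => G q.1 q.2) (Icc 0 T ×ˢ univ) := by
    simp only [hG]
    exact continuousOn_finsetSum _ (fun j _ => ((cu' j).sub (cu j)).pow 2)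
  have cG' : ContinuousOn (fun q : ℝ × V3 => G' q.1 q.2) (Icc 0 T ×ˢ univ) := by
    simp only [hG', hWt]
    refine continuousOn_finsetSum _ (fun j _ => ContinuousOn.mul ?_ ((ct' j).sub (ct j)))
    exact continuousOn_const.mul ((cu' j).sub (cu j))
  have hd : ∀ t ∈ Icc 0 T, ∀ x, HasDerivWithinAt (fun s => G s x) (G' t x) (Icc 0 T) t := by
    intro t ht x
    simp only [hG, hG', hWt]
    have : ∀ j ∈ (Finset.univ : Finset (Fin 3)), HasDerivWithinAt
        (fun s => (u' s x j - u s x j) ^ 2)
        (2 * (u' t x j - u t x j) * (derivWithin (fun s => u' s x) (Icc 0 T) t j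
          - derivWithin (fun s => u s x) (Icc 0 T) t j)) (Icc 0 T) t := by
      intro j _
      have h1 := ((comp_hasDerivWithinAt h' ht x j).sub (comp_hasDerivWithinAt h ht x j)).pow 2
      have h1' : HasDerivWithinAt (fun s => (u' s x j - u s x j) ^ 2) _ (Icc 0 T) t := h1
      refine h1'.congr_deriv ?_
      simp
    have h2 := HasDerivWithinAt.fun_sum this
    exact h2
  have hE : ∀ t ∈ Icc 0 T, ∫ x in cube, G t x = 0 := by
    refine eq_zero_of_deriv_le (C := 6 * L) (E' := fun t => ∫ x in cube, G' t x)
      (continuousOn_integral_cube hT.le cG) ?_ ?_ ?_ ?_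
    · simp only [hG]
      have : ∀ x : V3, ∑ j, (u' 0 x j - u 0 x j) ^ 2 = 0 := by
        intro x
        rw [h.initial x, h'.initial x]
        simp
      simp [this]
    · intro t _
      exact integral_nonneg (fun x => Finset.sum_nonneg (fun j _ => sq_nonneg _))
    · intro t ht
      exact hasDerivAt_integral_cube cG cG' hd ht
    · intro t ht
      have htc : t ∈ Icc 0 T := Ioo_subset_Icc_self ht
      have key := energy_ineq (ν := ν) (L := L) hν (fun j y => u' t y j) (fun j y => u t y j)
        (Wt t) (fun y => p' t y - p t y)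
        (fun j => (contDiff_pi.1 (h'.space_u t htc)) j)
        (fun j => (contDiff_pi.1 (h.space_u t htc)) j)
        ((h'.space_p t htc).sub (h.space_p t htc))
        (fun j x k => by simp only [h'.torus_u t htc x k])
        (fun j x k => by simp only [h.torus_u t htc x k])
        (fun x k => by simp only [h'.torus_p t htc x k, h.torus_p t htc x k])
        (h'.div_free t htc) (h.div_free t htc) (fun i j x => hL t htc i j x)
        (fun j => by
          simp only [hWt]
          exact (slice_continuous (ct' j) htc).sub (slice_continuous (ct j) htc))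
        (by
          intro x j
          have e1 := h.momentum t htc x j
          have e2 := h'.momentum t htc x j
          rw [comp_derivWithin hT h htc] at e1
          rw [comp_derivWithin hT h' htc] at e2
          have c1 := contDiff_pi.1 (h.space_u t htc) j
          have c2 := contDiff_pi.1 (h'.space_u t htc) j
          have f1 : pd j (fun y => p' t y - p t y) x = pd j (p' t) x - pd j (p t) x :=
            pd_sub ((h'.space_p t htc).differentiable (by norm_num) x)
              ((h.space_p t htc).differentiable (by norm_num) x)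
          have f2 : ∀ i, pd i (pd i (fun y => u' t y j - u t y j)) x =
              pd i (pd i (fun y => u' t y j)) x - pd i (pd i (fun y => u t y j)) x := by
            intro i
            have g1 : pd i (fun y => u' t y j - u t y j) = fun z =>
                pd i (fun y => u' t y j) z - pd i (fun y => u t y j) z := by
              funext z
              exact pd_sub (c2.differentiable (by norm_num) z)
                (c1.differentiable (by norm_num) z)
            rw [g1]
            exact pd_sub ((contDiff_pd c2).differentiable (by norm_num) x)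
              ((contDiff_pd c1).differentiable (by norm_num) x)
          simp only [f1, f2, hWt]
          rw [Finset.sum_sub_distrib, Finset.sum_sub_distrib]
          linarith)
      have e3 : ∫ x in cube, G' t x = 2 * ∫ x in cube, ∑ j, (u' t x j - u t x j) * Wt t j x := by
        rw [← integral_const_mul]
        congr 1
        funext x
        simp only [hG', Finset.mul_sum]
        refine Finset.sum_congr rfl (fun j _ => by ring)
      simp only [e3]
      simp only [hG]
      linarith
  intro t ht x
  have hz := eq_zero_of_integral_eq_zero (g := G t) (slice_continuous cG ht)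
    (fun x => Finset.sum_nonneg (fun j _ => sq_nonneg _))
    (fun x k => by simp only [hG, h'.torus_u t ht x k, h.torus_u t ht x k]) (hE t ht) x
  have h8 := (Finset.sum_eq_zero_iff_of_nonneg (fun j _ => sq_nonneg _)).1 hz
  funext j
  have h9 := h8 j (Finset.mem_univ j)
  have h10 : u' t x j - u t x j = 0 := by
    simpa using h9
  linarith

theorem classical_unique {ν T : ℝ} (hν : 0 < ν) (hT : 0 < T) {f u u' : ℝ → V3 → V3}
    {p p' : ℝ → V3 → ℝ} (h : IsClassicalO ν T f u p) (h' : IsClassicalO ν T f u' p') :
    ∀ t ∈ Icc 0 T, ∀ x, u' t x = u t x ∧ p' t x = p t x := by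
  have hu := velocity_unique hν hT h h'
  intro t ht x
  refine ⟨hu t ht x, ?_⟩
  have hut : u' t = u t := funext (fun x => hu t ht x)
  have hgrad : ∀ y j, pd j (p' t) y = pd j (p t) y := by
    intro y j
    have e1 := h.momentum t ht y j
    have e2 := h'.momentum t ht y j
    have e3 : derivWithin (fun s => u' s y j) (Icc 0 T) t
        = derivWithin (fun s => u s y j) (Icc 0 T) t := by
      apply derivWithin_congr
      · intro s hs; simp only [hu s hs y]
      · simp only [hu t ht y]
    rw [e3, hut] at e2
    linarith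
  have hdiff : Differentiable ℝ (fun y => p' t y - p t y) :=
    ((h'.space_p t ht).differentiable (by norm_num)).sub
      ((h.space_p t ht).differentiable (by norm_num))
  have hf0 : ∀ y, fderiv ℝ (fun y => p' t y - p t y) y = 0 := by
    intro y
    have e4 : ∀ j, fderiv ℝ (fun y => p' t y - p t y) y (Pi.single j 1) = 0 := by
      intro j
      have e5 : pd j (fun y => p' t y - p t y) y = pd j (p' t) y - pd j (p t) y :=
        pd_sub ((h'.space_p t ht).differentiable (by norm_num) y)
              ((h.space_p t ht).differentiable (by norm_num) y)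
      unfold pd at e5
      rw [e5]
      have := hgrad y j
      unfold pd at this
      rw [this, sub_self]
    apply ContinuousLinearMap.ext
    intro v
    have hv : v = ∑ j, v j • (Pi.single j (1:ℝ) : V3) := by
      funext k
      simp [Finset.sum_apply, Pi.single_apply]
    rw [hv, map_sum]
    simp [e4]
  have hconst : ∀ y, p' t y - p t y = p' t x - p t x := fun y =>
    is_const_of_fderiv_eq_zero hdiff hf0 y x
  have i1 := h.mean_p t ht
  have i2 := h'.mean_p t ht
  have hint : ∫ y in cube, (p' t y - p t y) = 0 := by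
    rw [integral_sub (integrableOn_cube (h'.space_p t ht).continuous)
      (integrableOn_cube (h.space_p t ht).continuous), i1, i2, sub_zero]
  have hvol : (volume.real cube) = 1 := by
    simp [Measure.real, Real.volume_Icc_pi]
  have hint2 : ∫ y in cube, (p' t y - p t y) = p' t x - p t x := by
    simp only [hconst]
    rw [setIntegral_const, hvol]
    simp
  linarith

end Vale.Agent.P113
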