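import Vale.Agent.P113.Flow

/-! Trajectories of the explicit flow. -/

namespace Vale.Agent.P113

open MeasureTheory Set Filter intervalIntegral
open scoped ContDiff Topology

/-- travelled distances -/
noncomputable def S1 (t : ℝ) : ℝ := ∫ s in (0:ℝ)..t, phi 0 0 1 s
noncomputable def S2 (t : ℝ) : ℝ := ∫ s in (0:ℝ)..t, Dt 0 s

lemma continuous_b : Continuous (fun t => phi 0 0 1 t) := (contDiff_bt 0).continuous
lemma continuous_Dt : Continuous (Dt 0) := (contDiff_Dt 0).continuous

lemma hasDerivAt_S1 (t : ℝ) : HasDerivAt S1 (phi 0 0 1 t) t :=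
  integral_hasDerivAt_right (continuous_b.intervalIntegrable _ _)
    (continuous_b.stronglyMeasurableAtFilter _ _) continuous_b.continuousAt

lemma hasDerivAt_S2 (t : ℝ) : HasDerivAt S2 (Dt 0 t) t :=
  integral_hasDerivAt_right (continuous_Dt.intervalIntegrable _ _)
    (continuous_Dt.stronglyMeasurableAtFilter _ _) continuous_Dt.continuousAt

lemma S1_zero : S1 0 = 0 := by simp [S1]
lemma S2_zero : S2 0 = 0 := by simp [S2]

lemma S1_one_pos : 0 < S1 1 := by
  unfold S1
  refine intervalIntegral_pos_of_pos_on (continuous_b.intervalIntegrable _ _) ?_ zero_lt_one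
  intro x hx
  exact phi_zero_pos hx.1 hx.2

lemma phi_zero_le_one (t : ℝ) : phi 0 0 1 t ≤ 1 := by
  have e : ∀ x : ℝ, expNegInvGlue x ≤ 1 := by
    intro x
    unfold expNegInvGlue
    split_ifs with h
    · exact zero_le_one
    · rw [Real.exp_le_one_iff]
      have : 0 < x⁻¹ := inv_pos.2 (not_le.1 h)
      linarith
  rw [phi_zero]
  exact mul_le_one₀ (e _) (expNegInvGlue.nonneg _) (e _)

lemma S1_eq {t : ℝ} (h : 1 ≤ t) : S1 t = S1 1 := by
  unfold S1
  rw [← integral_add_adjacent_intervals (continuous_b.intervalIntegrable 0 1)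
    (continuous_b.intervalIntegrable 1 t)]
  have : ∫ s in (1:ℝ)..t, phi 0 0 1 s = 0 := by
    rw [integral_congr (g := fun _ => (0:ℝ))]
    · simp
    · intro s hs
      rw [uIcc_of_le h] at hs
      exact phi_of_ge_right 0 hs.1
  rw [this, add_zero]

/-- each period contributes the same distance -/
lemma S2_nat (n : ℕ) : S2 (n + 1) = n * S1 1 := by
  induction n with
  | zero =>
    simp only [Nat.cast_zero, zero_add, zero_mul]
    unfold S2
    rw [integral_congr (g := fun _ => (0:ℝ))]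
    · simp
    · intro s hs
      rw [uIcc_of_le zero_le_one] at hs
      exact Dt_eq_zero 0 hs.1 hs.2
  | succ n ih =>
    have h1 : S2 ((n + 1 : ℕ) + 1) = S2 (n + 1) +
        ∫ s in ((n:ℝ) + 1)..((n + 1 : ℕ) + 1), Dt 0 s := by
      unfold S2
      rw [integral_add_adjacent_intervals (continuous_Dt.intervalIntegrable _ _)
        (continuous_Dt.intervalIntegrable _ _)]
    have h2 : ∫ s in ((n:ℝ) + 1)..((n + 1 : ℕ) + 1), Dt 0 s = S1 1 := by
      have e1 : ((n + 1 : ℕ) : ℝ) + 1 = 1 + ((n:ℝ) + 1) := by push_cast; ring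
      have e2 : ((n:ℝ) + 1) = 0 + ((n:ℝ) + 1) := by ring
      rw [e1]
      conv_lhs => rw [show ((n:ℝ) + 1) = 0 + ((n:ℝ) + 1) by ring]
      rw [show (1:ℝ) + (0 + ((n:ℝ) + 1)) = 1 + ((n:ℝ) + 1) by ring]
      rw [← integral_comp_add_right (fun s => Dt 0 s) ((n:ℝ) + 1)]
      unfold S1
      refine integral_congr ?_
      intro s hs
      rw [uIcc_of_le zero_le_one] at hs
      simp only
      unfold Dt
      rw [phi_of_ge_right 0 (by have := hs.1; have : (0:ℝ) ≤ n := n.cast_nonneg; linarith),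
        sub_zero]
      have e3 : s + ((n:ℝ) + 1) = s + ((n + 1 : ℤ) : ℝ) := by push_cast; ring
      rw [e3, Pe_add_int]
      have e4 := Dt_eq_zero 0 hs.1 hs.2
      unfold Dt at e4
      linarith
    rw [h1, h2, ih]
    push_cast
    ring

/-! ### the trajectory -/

/-- final height of the particle -/
noncomputable def height (c : ℝ) : ℝ := c * S1 1

lemma speed_eq (c : ℝ) (M : Machine) {t : ℝ} (h0 : 0 ≤ t) :
    Dt 0 t * G M 0 (c * S1 t) = Dt 0 t * G M 0 (height c) := by
  rcases le_total t 1 with h | h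
  · rw [Dt_eq_zero 0 h0 h, zero_mul, zero_mul]
  · rw [S1_eq h, height]

/-- the explicit trajectory of the origin -/
noncomputable def Xt (c : ℝ) (M : Machine) : ℝ → V3 :=
  fun t => ![G M 0 (height c) * S2 t, c * S1 t, 0]

lemma isTrajectory_Xt (c : ℝ) (M : Machine) : IsTrajectoryO (vel c M) 0 (Xt c M) := by
  refine ⟨?_, fun t ht => ?_⟩
  · unfold Xt
    rw [S1_zero, S2_zero]
    funext i
    fin_cases i <;> simp
  · refine HasDerivAt.hasDerivWithinAt ?_
    rw [hasDerivAt_pi]
    intro i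
    fin_cases i
    · have h := (hasDerivAt_S2 t).const_mul (G M 0 (height c))
      have e : vel c M t (Xt c M t) ((fun i => i) ⟨0, by omega⟩) =
          G M 0 (height c) * Dt 0 t := by
        have e2 : vel c M t (Xt c M t) ((fun i => i) ⟨0, by omega⟩) =
          Dt 0 t * G M 0 (c * S1 t) := rfl
        rw [e2, speed_eq c M ht, mul_comm]
      rw [e]
      exact h
    · exact (hasDerivAt_S1 t).const_mul c
    · exact hasDerivAt_const t 0

lemma eq_of_hasDerivWithinAt {f g h : ℝ → ℝ} (hf : ∀ t, 0 ≤ t → HasDerivWithinAt f (h t) (Ici 0) t)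
    (hg : ∀ t, 0 ≤ t → HasDerivAt g (h t) t) (h0 : f 0 = g 0) : ∀ t, 0 ≤ t → f t = g t := by
  intro t ht
  have hd : ∀ s, 0 ≤ s → HasDerivWithinAt (fun s => f s - g s) 0 (Ici 0) s := by
    intro s hs
    have := (hf s hs).sub (hg s hs).hasDerivWithinAt
    rwa [sub_self] at this
  have h1 := constant_of_has_deriv_right_zero (f := fun s => f s - g s) (a := 0) (b := t)
    (fun s hs => ((hd s hs.1).continuousWithinAt).mono Icc_subset_Ici_self)
    (fun s hs => (hd s hs.1).mono (Ici_subset_Ici.2 hs.1)) t ⟨ht, le_rfl⟩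
  simp only [h0, sub_self] at h1
  linarith

lemma trajectory_eq (c : ℝ) (M : Machine) {X : ℝ → V3} (hX : IsTrajectoryO (vel c M) 0 X) :
    ∀ t, 0 ≤ t → X t 0 = G M 0 (height c) * S2 t := by
  obtain ⟨h0, hd⟩ := hX
  have hd1 : ∀ t, 0 ≤ t → HasDerivWithinAt (fun s => X s 1) (c * phi 0 0 1 t) (Ici 0) t :=
    fun t ht => hasDerivWithinAt_pi.1 (hd t ht) 1
  have e1 : ∀ t, 0 ≤ t → X t 1 = c * S1 t :=
    eq_of_hasDerivWithinAt (g := fun t => c * S1 t) hd1
      (fun t _ => (hasDerivAt_S1 t).const_mul c) (by simp [h0, S1_zero])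
  have hd0 : ∀ t, 0 ≤ t → HasDerivWithinAt (fun s => X s 0) (G M 0 (height c) * Dt 0 t)
      (Ici 0) t := by
    intro t ht
    have h := hasDerivWithinAt_pi.1 (hd t ht) 0
    have e : vel c M t (X t) 0 = G M 0 (height c) * Dt 0 t := by
      have e2 : vel c M t (X t) 0 = Dt 0 t * G M 0 (X t 1) := rfl
      rw [e2, e1 t ht, speed_eq c M ht, mul_comm]
    rwa [e] at h
  exact eq_of_hasDerivWithinAt (g := fun t => G M 0 (height c) * S2 t) hd0
    (fun t _ => (hasDerivAt_S2 t).const_mul _) (by simp [h0, S2_zero])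

/-- the open set -/
def target : Set T3 := {q | q 0 ∈ (fun r : ℝ => (r : UnitAddCircle)) '' Ioo (1 / 4) (3 / 4)}

lemma isOpen_target : IsOpen target := by
  have h1 : IsOpen ((fun r : ℝ => (r : UnitAddCircle)) '' Ioo (1 / 4) (3 / 4)) :=
    QuotientAddGroup.isOpenMap_coe _ isOpen_Ioo
  exact h1.preimage (continuous_apply 0)

lemma hits_iff (c : ℝ) (M : Machine) {X : ℝ → V3} (hX : IsTrajectoryO (vel c M) 0 X)
    (hG : 0 ≤ G M 0 (height c)) :
    (∃ t, 0 ≤ t ∧ proj (X t) ∈ target) ↔ 0 < G M 0 (height c) := by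
  have key := trajectory_eq c M hX
  constructor
  · rintro ⟨t, ht, r, ⟨hr1, hr2⟩, hr⟩
    refine lt_of_le_of_ne hG (fun h => ?_)
    have h1 : X t 0 = 0 := by rw [key t ht, ← h, zero_mul]
    have h2 : (r : UnitAddCircle) = ((X t 0 : ℝ) : UnitAddCircle) := hr
    rw [h1, AddCircle.coe_zero, AddCircle.coe_eq_zero_iff] at h2
    obtain ⟨n, hn⟩ := h2
    rw [zsmul_one] at hn
    have h3 : (0:ℝ) < n := by rw [hn]; linarith
    have h4 : (n:ℝ) < 1 := by rw [hn]; linarith
    have h5 : (0:ℤ) < n := by exact_mod_cast h3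
    have h6 : n < (1:ℤ) := by exact_mod_cast h4
    omega
  · intro h
    obtain ⟨n, hn⟩ := exists_nat_gt (1 / (G M 0 (height c) * S1 1))
    have hpos : 0 < G M 0 (height c) * S1 1 := mul_pos h S1_one_pos
    have h1 : 1 ≤ G M 0 (height c) * S2 (n + 1) := by
      rw [S2_nat]
      rw [div_lt_iff₀ hpos] at hn
      linarith
    have hc : ContinuousOn (fun t => G M 0 (height c) * S2 t) (Icc 0 ((n:ℝ) + 1)) :=
      (continuous_iff_continuousAt.2 (fun t =>
        ((hasDerivAt_S2 t).const_mul _).continuousAt)).continuousOn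
    have h2 := intermediate_value_Icc (by positivity : (0:ℝ) ≤ (n:ℝ) + 1) hc
    have h3 : (1 / 2 : ℝ) ∈ Icc (G M 0 (height c) * S2 0) (G M 0 (height c) * S2 (n + 1)) := by
      rw [S2_zero, mul_zero]
      constructor
      · norm_num
      · linarith
    obtain ⟨t, ht, htt⟩ := h2 h3
    refine ⟨t, ht.1, 1 / 2, ⟨by norm_num, by norm_num⟩, ?_⟩
    have h4 : X t 0 = 1 / 2 := by rw [key t ht.1]; exact htt
    change ((1 / 2 : ℝ) : UnitAddCircle) = ((X t 0 : ℝ) : UnitAddCircle)
    rw [h4]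

end Vale.Agent.P113
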