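import Vale.Agent.P113.Compiler
import Vale.Agent.P113.Traj

/-! Final assembly. -/

namespace Vale.Agent.P113

open MeasureTheory Set Filter intervalIntegral
open scoped ContDiff Topology

/-- a rational feeding constant -/
lemma exists_constants : ∃ c₁ c₂ : ℕ, 1 / 2 < (c₁ : ℝ) / (c₂ + 1) * S1 1 ∧
    (c₁ : ℝ) / (c₂ + 1) * S1 1 < 1 := by
  have hI := S1_one_pos
  obtain ⟨q, hq1, hq2⟩ := exists_rat_btwn (show 1 / (2 * S1 1) < 1 / S1 1 by
    apply one_div_lt_one_div_of_lt hI; linarith)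
  have hq : (0:ℝ) < q := lt_trans (by positivity) hq1
  have hq' : 0 < q := by exact_mod_cast hq
  refine ⟨q.num.toNat, q.den - 1, ?_⟩
  have h1 : ((q.num.toNat : ℕ) : ℝ) / (((q.den - 1 : ℕ) : ℝ) + 1) = q := by
    have h2 : (((q.den - 1 : ℕ) : ℝ) + 1) = q.den := by
      have := q.den_pos
      rw [Nat.cast_sub this]
      simp
    have h3 : ((q.num.toNat : ℕ) : ℝ) = (q.num : ℝ) := by
      have : ((q.num.toNat : ℕ) : ℤ) = q.num := Int.toNat_of_nonneg (Rat.num_pos.2 hq').le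
      exact_mod_cast this
    rw [h2, h3]
    exact (Rat.cast_def q).symm
  rw [h1]
  constructor
  · rw [div_lt_iff₀ (by positivity)] at hq1
    linarith
  · rw [lt_div_iff₀ hI] at hq2
    exact hq2

lemma G_height {c₁ c₂ : ℕ} (h1 : 1 / 2 < (c₁ : ℝ) / (c₂ + 1) * S1 1)
    (h2 : (c₁ : ℝ) / (c₂ + 1) * S1 1 < 1) (M : Machine) (w : List ℕ) :
    0 ≤ G M 0 (height (cw c₁ c₂ w)) ∧ (0 < G M 0 (height (cw c₁ c₂ w)) ↔ HaltsOn M w) := by
  set n := Encodable.encode w with hn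
  have e : height (cw c₁ c₂ w) = ((c₁ : ℝ) / (c₂ + 1) * S1 1) * (1 / 2) ^ n := by
    unfold height cw
    ring
  have hp := half_pow_pos n
  have b1 : (1 / 2 : ℝ) ^ (n + 1) < height (cw c₁ c₂ w) := by
    rw [e, pow_succ]
    nlinarith
  have b2 : height (cw c₁ c₂ w) < (1 / 2 : ℝ) ^ n := by
    rw [e]
    nlinarith
  rw [G_zero_eq M b1 b2, hn, word_encode]
  have hphi := phi_zero_pos b1 b2
  have hw := wt_nonneg M w
  constructor
  · exact mul_nonneg (mul_nonneg hp.le hw) hphi.le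
  · rw [← wt_pos_iff]
    constructor
    · intro h
      refine lt_of_le_of_ne hw (fun h0 => ?_)
      rw [← h0] at h
      simp at h
    · intro h
      exact mul_pos (mul_pos hp h) hphi

theorem main (ν : ℝ) (hν : 0 < ν) (hc : ComputableReal ν) :
    ∃ (a : V3) (O : Set T3) (prog : Machine × List ℕ → Nat.Partrec.Code)
      (f : Machine → List ℕ → ℝ → V3 → V3) (T₀ : ℝ),
      IsOpen O ∧ IsForceCompiler prog f T₀ ∧
      ∀ (M : Machine) (w : List ℕ), ∃ (u : ℝ → V3 → V3) (p : ℝ → V3 → ℝ),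
        Smooth u ∧ SmoothFun p ∧ (∀ T, 0 < T → IsClassical ν T (f M w) u p) ∧
        (∀ T, 0 < T → ∀ u' p', IsClassical ν T (f M w) u' p' →
          ∀ t ∈ Icc 0 T, ∀ x, u' t x = u t x ∧ p' t x = p t x) ∧
        (∃ X, IsTrajectory u a X) ∧
        ∀ X, IsTrajectory u a X → ((∃ t, 0 ≤ t ∧ proj (X t) ∈ O) ↔ HaltsOn M w) := by
  obtain ⟨c₁, c₂, h1, h2⟩ := exists_constants
  obtain ⟨prog, hprog⟩ := exists_compiler ν hc c₁ c₂
  refine ⟨0, target, prog, fun M w => force ν (cw c₁ c₂ w) M, 1, isOpen_target, hprog, ?_⟩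
  intro M w
  have hcl := fun T (hT : 0 < T) => isClassical_vel ν (cw c₁ c₂ w) M hT
  obtain ⟨g1, g2⟩ := G_height h1 h2 M w
  refine ⟨vel (cw c₁ c₂ w) M, fun _ _ => 0, contDiff_vel _ M, contDiff_const,
    fun T hT => (hcl T hT).toNew, ?_, ⟨_, (isTrajectory_iff _ _ _).2 (isTrajectory_Xt _ M)⟩, ?_⟩
  · intro T hT u' p' h' t ht x
    exact classical_unique hν hT (hcl T hT) h'.toO t ht x
  · intro X hX
    rw [hits_iff _ M ((isTrajectory_iff _ _ _).1 hX) g1, g2]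

end Vale.Agent.P113
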