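import Vale.Agent.P113.Series
import Vale.Agent.P113.Energy3

/-! The explicit force and the explicit flow. -/

namespace Vale.Agent.P113

open MeasureTheory Set Filter
open scoped ContDiff Topology

/-- time profiles: the periodic bump train without its first bump, and its derivatives -/
noncomputable def Dt (m : ℕ) (t : ℝ) : ℝ := Pe (phi m 0 1) t - phi m 0 1 t

lemma hasDerivAt_Dt (m : ℕ) (t : ℝ) : HasDerivAt (Dt m) (Dt (m + 1) t) t :=
  (hasDerivAt_Pe_phi m le_rfl le_rfl t).sub (hasDerivAt_phi m 0 1 t)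

lemma contDiff_Dt (m : ℕ) : ContDiff ℝ ∞ (Dt m) := tower_contDiff hasDerivAt_Dt m

lemma contDiff_bt (m : ℕ) : ContDiff ℝ ∞ (fun t => phi m 0 1 t) :=
  tower_contDiff (F := fun m t => phi m 0 1 t) (fun k y => hasDerivAt_phi k 0 1 y) m

lemma Dt_eq_zero (m : ℕ) {t : ℝ} (h0 : 0 ≤ t) (h1 : t ≤ 1) : Dt m t = 0 := by
  unfold Dt Pe
  rcases h1.lt_or_eq with h | h
  · rw [Int.fract_eq_self.2 ⟨h0, h⟩, sub_self]
  · rw [h]
    rw [Int.fract_one, phi_of_le_left m le_rfl, phi_of_ge_right m le_rfl, sub_self]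

lemma Dt_mul_bt (t : ℝ) : Dt 0 t * phi 0 0 1 t = 0 := by
  rcases le_or_gt t 0 with h | h
  · rw [phi_of_le_left 0 h, mul_zero]
  · rcases le_or_gt 1 t with h' | h'
    · rw [phi_of_ge_right 0 h', mul_zero]
    · rw [Dt_eq_zero 0 h.le h'.le, zero_mul]

lemma Dt_add_one (m : ℕ) {t : ℝ} (h : 1 ≤ t) : Dt m (t + 1) = Dt m t := by
  unfold Dt
  rw [Pe_add_one, phi_of_ge_right m h, phi_of_ge_right m (by linarith)]

/-- the first component of the force and its derivatives -/
noncomputable def Fm (ν : ℝ) (M : Machine) (m k : ℕ) (t : ℝ) (x : V3) : ℝ :=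
  Dt (m + 1) t * G M k (x 1) - ν * (Dt m t * G M (k + 2) (x 1))

/-- the force -/
noncomputable def force (ν c : ℝ) (M : Machine) : ℝ → V3 → V3 :=
  fun t x => ![Fm ν M 0 0 t x, c * phi 1 0 1 t, 0]

/-- the velocity -/
noncomputable def vel (c : ℝ) (M : Machine) : ℝ → V3 → V3 :=
  fun t x => ![Dt 0 t * G M 0 (x 1), c * phi 0 0 1 t, 0]

/-! ### partial derivatives -/

lemma pd_comp {φ : ℝ → ℝ} {φ' : ℝ} {x : V3} (i : Fin 3) (h : HasDerivAt φ φ' (x 1)) :
    pd i (fun y : V3 => φ (y 1)) x = if i = 1 then φ' else 0 := by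
  have h1 : HasFDerivAt (fun y : V3 => y 1) (ContinuousLinearMap.proj 1 : V3 →L[ℝ] ℝ) x :=
    hasFDerivAt_apply 1 x
  have h2 := h.comp_hasFDerivAt x h1
  have h3 : fderiv ℝ (fun y : V3 => φ (y 1)) x = φ' • (ContinuousLinearMap.proj 1 : V3 →L[ℝ] ℝ) :=
    h2.fderiv
  unfold pd
  rw [h3]
  simp only [smul_apply, ContinuousLinearMap.proj_apply, Pi.single_apply,
    smul_eq_mul]
  by_cases hi : i = 1
  · simp [hi]
  · have : ¬ (1 = i) := fun h => hi h.symm
    simp [hi, this]

lemma pd_const (i : Fin 3) (c : ℝ) (x : V3) : pd i (fun _ : V3 => c) x = 0 := by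
  simp [pd]

lemma dx_zero (i : Fin 3) : dx i (fun _ _ => 0) = fun _ _ => 0 := by
  funext t x
  exact pd_const i 0 x

lemma dt_zero : dt (fun _ _ => 0) = fun _ _ => 0 := by
  funext t x
  simp [dt]

lemma dx_Fm (ν : ℝ) (M : Machine) (m k : ℕ) (i : Fin 3) :
    dx i (Fm ν M m k) = if i = 1 then Fm ν M m (k + 1) else fun _ _ => 0 := by
  funext t x
  have h := pd_comp (x := x) i (((hasDerivAt_G M k (x 1)).const_mul (Dt (m + 1) t)).sub
    (((hasDerivAt_G M (k + 2) (x 1)).const_mul (Dt m t)).const_mul ν))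
  have h2 : dx i (Fm ν M m k) t x = _ := h
  rw [h2]
  by_cases hi : i = 1
  · simp only [hi, if_true]
    rfl
  · simp only [hi, if_false]

lemma dt_Fm (ν : ℝ) (M : Machine) (m k : ℕ) : dt (Fm ν M m k) = Fm ν M (m + 1) k := by
  funext t x
  exact (((hasDerivAt_Dt (m + 1) t).mul_const _).sub
    (((hasDerivAt_Dt m t).mul_const _).const_mul ν)).deriv

lemma iter_dx_zero (i : Fin 3) (n : ℕ) : (dx i)^[n] (fun _ _ => 0) = fun _ _ => 0 :=
  Function.iterate_fixed (dx_zero i) n

lemma iter_dt_zero (n : ℕ) : dt^[n] (fun _ _ => 0) = fun _ _ => 0 :=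
  Function.iterate_fixed dt_zero n

lemma iter_dx_other (ν : ℝ) (M : Machine) (m k : ℕ) {i : Fin 3} (hi : i ≠ 1) (n : ℕ) :
    (dx i)^[n] (Fm ν M m k) = if n = 0 then Fm ν M m k else fun _ _ => 0 := by
  rcases n with _ | n
  · rfl
  · rw [Function.iterate_succ_apply, dx_Fm, if_neg hi, iter_dx_zero, if_neg (by omega)]

lemma iter_dx_one (ν : ℝ) (M : Machine) (m k : ℕ) (n : ℕ) :
    (dx 1)^[n] (Fm ν M m k) = Fm ν M m (k + n) := by
  induction n with
  | zero => rfl
  | succ n ih => rw [Function.iterate_succ_apply', ih, dx_Fm, if_pos rfl]; rfl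

lemma iter_dt (ν : ℝ) (M : Machine) (m k : ℕ) (n : ℕ) :
    dt^[n] (Fm ν M m k) = Fm ν M (m + n) k := by
  induction n with
  | zero => rfl
  | succ n ih => rw [Function.iterate_succ_apply', ih, dt_Fm]; rfl

lemma mixed_zero (a b₀ b₁ b₂ : ℕ) : mixed a b₀ b₁ b₂ (fun _ _ => 0) = fun _ _ => 0 := by
  unfold mixed
  rw [iter_dx_zero, iter_dx_zero, iter_dx_zero, iter_dt_zero]

lemma mixed_Fm (ν : ℝ) (M : Machine) (a b₀ b₁ b₂ : ℕ) :
    mixed a b₀ b₁ b₂ (Fm ν M 0 0) = if b₂ = 0 then (if b₀ = 0 then Fm ν M a b₁ else fun _ _ => 0)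
      else fun _ _ => 0 := by
  unfold mixed
  rw [iter_dx_other ν M 0 0 (by decide : (2 : Fin 3) ≠ 1)]
  by_cases h2 : b₂ = 0
  · rw [if_pos h2, if_pos h2, iter_dx_one, iter_dx_other _ _ _ _ (by decide : (0 : Fin 3) ≠ 1)]
    by_cases h0 : b₀ = 0
    · rw [if_pos h0, if_pos h0, iter_dt, Nat.zero_add, Nat.zero_add]
    · rw [if_neg h0, if_neg h0, iter_dt_zero]
  · rw [if_neg h2, if_neg h2, iter_dx_zero, iter_dx_zero, iter_dt_zero]

/-- functions of time only -/
noncomputable def Tm (c : ℝ) (m : ℕ) (t : ℝ) (_ : V3) : ℝ := c * phi m 0 1 t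

lemma dx_Tm (c : ℝ) (m : ℕ) (i : Fin 3) : dx i (Tm c m) = fun _ _ => 0 := by
  funext t x
  exact pd_const i _ x

lemma dt_Tm (c : ℝ) (m : ℕ) : dt (Tm c m) = Tm c (m + 1) := by
  funext t x
  exact ((hasDerivAt_phi m 0 1 t).const_mul c).deriv

lemma iter_dx_Tm (c : ℝ) (m : ℕ) (i : Fin 3) (n : ℕ) :
    (dx i)^[n] (Tm c m) = if n = 0 then Tm c m else fun _ _ => 0 := by
  rcases n with _ | n
  · rfl
  · rw [Function.iterate_succ_apply, dx_Tm, iter_dx_zero, if_neg (by omega)]

lemma iter_dt_Tm (c : ℝ) (m : ℕ) (n : ℕ) : dt^[n] (Tm c m) = Tm c (n + m) := by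
  induction n with
  | zero => rw [Nat.zero_add]; rfl
  | succ n ih =>
    rw [Function.iterate_succ_apply', ih, dt_Tm]
    congr 1
    omega

lemma mixed_Tm (c : ℝ) (a b₀ b₁ b₂ : ℕ) :
    mixed a b₀ b₁ b₂ (Tm c 1) = if b₂ = 0 then (if b₁ = 0 then (if b₀ = 0 then Tm c (a + 1)
      else fun _ _ => 0) else fun _ _ => 0) else fun _ _ => 0 := by
  unfold mixed
  rw [iter_dx_Tm]
  by_cases h2 : b₂ = 0
  · rw [if_pos h2, if_pos h2, iter_dx_Tm]
    by_cases h1 : b₁ = 0
    · rw [if_pos h1, if_pos h1, iter_dx_Tm]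
      by_cases h0 : b₀ = 0
      · rw [if_pos h0, if_pos h0, iter_dt_Tm]
      · rw [if_neg h0, if_neg h0, iter_dt_zero]
    · rw [if_neg h1, if_neg h1, iter_dx_zero, iter_dt_zero]
  · rw [if_neg h2, if_neg h2, iter_dx_zero, iter_dx_zero, iter_dt_zero]

/-! ### smoothness -/

lemma contDiff_comp1 {φ : ℝ → ℝ} (h : ContDiff ℝ ∞ φ) :
    ContDiff ℝ ∞ (fun q : ℝ × V3 => φ (q.2 1)) :=
  h.comp ((contDiff_apply ℝ ℝ (1 : Fin 3)).comp contDiff_snd)

lemma contDiff_timefun {φ : ℝ → ℝ} (h : ContDiff ℝ ∞ φ) :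
    ContDiff ℝ ∞ (fun q : ℝ × V3 => φ q.1) := h.comp contDiff_fst

lemma contDiff_force (ν c : ℝ) (M : Machine) :
    ContDiff ℝ ∞ (fun q : ℝ × V3 => force ν c M q.1 q.2) := by
  rw [contDiff_pi]
  intro i
  fin_cases i
  · exact ((contDiff_timefun (contDiff_Dt 1)).mul (contDiff_comp1 (contDiff_G M 0))).sub
      (contDiff_const.mul ((contDiff_timefun (contDiff_Dt 0)).mul
        (contDiff_comp1 (contDiff_G M 2))))
  · exact contDiff_const.mul (contDiff_timefun (contDiff_bt 1))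
  · exact contDiff_const

lemma contDiff_vel (c : ℝ) (M : Machine) :
    ContDiff ℝ ∞ (fun q : ℝ × V3 => vel c M q.1 q.2) := by
  rw [contDiff_pi]
  intro i
  fin_cases i
  · exact ((contDiff_timefun (contDiff_Dt 0)).mul (contDiff_comp1 (contDiff_G M 0)))
  · exact contDiff_const.mul (contDiff_timefun (contDiff_bt 0))
  · exact contDiff_const

lemma smoothForce_force (ν c : ℝ) (M : Machine) : SmoothForceO (force ν c M) where
  smooth := contDiff_force ν c M
  torus := by
    intro t x k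
    unfold force Fm
    simp only [Pi.add_apply, G_add_int]

/-! ### the Navier-Stokes system -/

lemma hasDerivAt_vel (c : ℝ) (M : Machine) (t : ℝ) (x : V3) :
    HasDerivAt (fun s => vel c M s x) ![Dt 1 t * G M 0 (x 1), c * phi 1 0 1 t, 0] t := by
  rw [hasDerivAt_pi]
  intro i
  fin_cases i
  · exact (hasDerivAt_Dt 0 t).mul_const _
  · exact (hasDerivAt_phi 0 0 1 t).const_mul c
  · exact hasDerivAt_const t 0

lemma pd_vel (c : ℝ) (M : Machine) (t : ℝ) (i j : Fin 3) :
    pd i (fun y => vel c M t y j) = fun x =>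
      if j = 0 then (if i = 1 then Dt 0 t * G M 1 (x 1) else 0) else 0 := by
  funext x
  fin_cases j
  · simp only [Fin.zero_eta, if_true]
    exact pd_comp (x := x) i ((hasDerivAt_G M 0 (x 1)).const_mul (Dt 0 t))
  · exact pd_const i _ x
  · exact pd_const i _ x

lemma pd_pd_vel (c : ℝ) (M : Machine) (t : ℝ) (i k j : Fin 3) :
    pd i (pd k (fun y => vel c M t y j)) = fun x =>
      if j = 0 then (if k = 1 then (if i = 1 then Dt 0 t * G M 2 (x 1) else 0) else 0) else 0 := by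
  rw [pd_vel]
  funext x
  by_cases hj : j = 0
  · simp only [hj, if_true]
    by_cases hk : k = 1
    · simp only [hk, if_true]
      exact pd_comp (x := x) i ((hasDerivAt_G M 1 (x 1)).const_mul (Dt 0 t))
    · simp only [hk, if_false]
      exact pd_const i 0 x
  · simp only [hj, if_false]
    exact pd_const i 0 x

lemma vel_cont_ut (c : ℝ) (M : Machine) {T : ℝ} (hT : 0 < T) :
    ContinuousOn (fun q : ℝ × V3 => derivWithin (fun s => vel c M s q.2) (Icc 0 T) q.1)
    (Icc 0 T ×ˢ univ) := by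
  have h : Continuous (fun q : ℝ × V3 =>
      (![Dt 1 q.1 * G M 0 (q.2 1), c * phi 1 0 1 q.1, 0] : V3)) := by
    rw [continuous_pi_iff]
    intro i
    fin_cases i
    · exact ((contDiff_timefun (contDiff_Dt 1)).mul (contDiff_comp1 (contDiff_G M 0))).continuous
    · exact (contDiff_const.mul (contDiff_timefun (contDiff_bt 1))).continuous
    · exact continuous_const
  refine h.continuousOn.congr ?_
  rintro ⟨t, x⟩ ⟨ht, _⟩
  exact (hasDerivAt_vel c M t x).hasDerivWithinAt.derivWithin (uniqueDiffOn_Icc hT t ht)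

lemma vel_cont_du (c : ℝ) (M : Machine) (i j : Fin 3) :
    Continuous (fun q : ℝ × V3 => pd i (fun y => vel c M q.1 y j) q.2) := by
  simp only [pd_vel]
  by_cases hj : j = 0
  · by_cases hi : i = 1
    · simp only [hj, hi, if_true]
      exact ((contDiff_timefun (contDiff_Dt 0)).mul (contDiff_comp1 (contDiff_G M 1))).continuous
    · simp only [hj, hi, if_true, if_false]
      exact continuous_const
  · simp only [hj, if_false]
    exact continuous_const

lemma vel_cont_ddu (c : ℝ) (M : Machine) (i k j : Fin 3) :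
    Continuous (fun q : ℝ × V3 => pd i (pd k (fun y => vel c M q.1 y j)) q.2) := by
  simp only [pd_pd_vel]
  by_cases hj : j = 0
  · by_cases hk : k = 1
    · by_cases hi : i = 1
      · simp only [hj, hi, hk, if_true]
        exact ((contDiff_timefun (contDiff_Dt 0)).mul
          (contDiff_comp1 (contDiff_G M 2))).continuous
      · simp only [hj, hi, hk, if_true, if_false]
        exact continuous_const
    · simp only [hj, hk, if_true, if_false]
      exact continuous_const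
  · simp only [hj, if_false]
    exact continuous_const

lemma vel_momentum (ν c : ℝ) (M : Machine) {T : ℝ} (hT : 0 < T) {t : ℝ} (ht : t ∈ Icc 0 T)
    (x : V3) (j : Fin 3) :
    derivWithin (fun s => vel c M s x j) (Icc 0 T) t +
      ∑ i, vel c M t x i * pd i (fun y => vel c M t y j) x
      = - pd j (fun _ : V3 => (0 : ℝ)) x + ν * ∑ i, pd i (pd i (fun y => vel c M t y j)) x
        + force ν c M t x j := by
  have h1 : derivWithin (fun s => vel c M s x j) (Icc 0 T) t =
      (![Dt 1 t * G M 0 (x 1), c * phi 1 0 1 t, 0] : V3) j := by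
    have := hasDerivAt_pi.1 (hasDerivAt_vel c M t x) j
    exact this.hasDerivWithinAt.derivWithin (uniqueDiffOn_Icc hT t ht)
  have h2 : pd j (fun _ : V3 => (0 : ℝ)) x = 0 := pd_const j 0 x
  rw [h1, h2]
  simp only [pd_pd_vel]
  simp only [pd_vel]
  have h3 := Dt_mul_bt t
  fin_cases j
  · simp [vel, force, Fm]
    rcases mul_eq_zero.1 h3 with h | h
    · exact Or.inr (Or.inl h)
    · exact Or.inl (Or.inr h)
  · simp [force]
  · simp [force]

lemma vel_div_free (c : ℝ) (M : Machine) (t : ℝ) (x : V3) :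
    ∑ i, pd i (fun y => vel c M t y i) x = 0 := by
  simp only [pd_vel]
  simp

lemma vel_initial (c : ℝ) (M : Machine) (x : V3) : vel c M 0 x = 0 := by
  unfold vel
  rw [Dt_eq_zero 0 le_rfl zero_le_one, phi_of_le_left 0 le_rfl]
  funext i
  fin_cases i <;> simp


lemma contDiff_vel_slice (c : ℝ) (M : Machine) (t : ℝ) : ContDiff ℝ 2 (vel c M t) := by
  have e : ContDiff ℝ 2 (fun x : V3 => x 1) := contDiff_apply ℝ ℝ (1 : Fin 3)
  have g : ContDiff ℝ 2 (G M 0) := contDiff_infty.1 (contDiff_G M 0) 2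
  rw [contDiff_pi]
  intro i
  fin_cases i
  · exact contDiff_const.mul (g.comp e)
  · exact contDiff_const
  · exact contDiff_const

lemma isClassical_vel (ν c : ℝ) (M : Machine) {T : ℝ} (hT : 0 < T) :
    IsClassicalO ν T (force ν c M) (vel c M) (fun _ _ => 0) := by
  have a1 : ∀ t ∈ Icc 0 T, ∀ x (k : Fin 3 → ℤ),
      vel c M t (x + fun i => (k i : ℝ)) = vel c M t x := by
    intro t _ x k
    unfold vel
    simp only [Pi.add_apply, G_add_int]
  have a2 : ∀ t ∈ Icc 0 T, ContDiff ℝ 2 (vel c M t) := fun t _ => contDiff_vel_slice c M t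
  have a3 : ∀ t ∈ Icc 0 T, ∀ x,
      DifferentiableWithinAt ℝ (fun s => vel c M s x) (Icc 0 T) t := by
    intro t _ x
    exact (hasDerivAt_vel c M t x).differentiableAt.differentiableWithinAt
  have a4 : ContinuousOn (fun q : ℝ × V3 => vel c M q.1 q.2) (Icc 0 T ×ˢ univ) :=
    (contDiff_vel c M).continuous.continuousOn
  have a5 : ∀ i, ContinuousOn (fun q : ℝ × V3 => pd i (fun _ : V3 => (0:ℝ)) q.2)
      (Icc 0 T ×ˢ univ) := by
    intro i
    have : (fun q : ℝ × V3 => pd i (fun _ : V3 => (0:ℝ)) q.2) = fun _ => 0 := by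
      funext q
      exact pd_const i 0 q.2
    rw [this]
    exact continuous_const.continuousOn
  have a6 : ∀ t ∈ Icc 0 T, ∫ _ in Icc (0 : V3) 1, (0:ℝ) = 0 := by intro t _; simp
  exact ⟨a1, fun _ _ _ _ => rfl, a2, fun _ _ => contDiff_const, a3, a4, vel_cont_ut c M hT,
    fun i j => (vel_cont_du c M i j).continuousOn,
    fun i k j => (vel_cont_ddu c M i k j).continuousOn, continuous_const.continuousOn, a5,
    a6, fun t ht x j => vel_momentum ν c M hT ht x j, fun t _ x => vel_div_free c M t x,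
    vel_initial c M⟩

end Vale.Agent.P113
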