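import Vale.Agent.P113.Defs

/-! Auxiliary forms of the definitions, and their equivalence. -/

namespace Vale.Agent.P113

open MeasureTheory Set
open scoped ContDiff

/-- A smooth force on the torus. -/
structure SmoothForceO (f : ℝ → V3 → V3) : Prop where
  smooth : ContDiff ℝ ∞ (fun q : ℝ × V3 => f q.1 q.2)
  torus : ∀ t x (k : Fin 3 → ℤ), f t (x + fun i => (k i : ℝ)) = f t x

/-- classical solutions, auxiliary form -/
structure IsClassicalO (ν T : ℝ) (f : ℝ → V3 → V3) (u : ℝ → V3 → V3) (p : ℝ → V3 → ℝ) :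
    Prop where
  torus_u : ∀ t ∈ Icc 0 T, ∀ x (k : Fin 3 → ℤ), u t (x + fun i => (k i : ℝ)) = u t x
  torus_p : ∀ t ∈ Icc 0 T, ∀ x (k : Fin 3 → ℤ), p t (x + fun i => (k i : ℝ)) = p t x
  space_u : ∀ t ∈ Icc 0 T, ContDiff ℝ 2 (u t)
  space_p : ∀ t ∈ Icc 0 T, ContDiff ℝ 1 (p t)
  time_u : ∀ t ∈ Icc 0 T, ∀ x, DifferentiableWithinAt ℝ (fun s => u s x) (Icc 0 T) t
  cont_u : ContinuousOn (fun q : ℝ × V3 => u q.1 q.2) (Icc 0 T ×ˢ univ)
  cont_ut : ContinuousOn (fun q : ℝ × V3 => derivWithin (fun s => u s q.2) (Icc 0 T) q.1)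
    (Icc 0 T ×ˢ univ)
  cont_du : ∀ i j, ContinuousOn (fun q : ℝ × V3 => pd i (fun y => u q.1 y j) q.2)
    (Icc 0 T ×ˢ univ)
  cont_ddu : ∀ i k j, ContinuousOn (fun q : ℝ × V3 => pd i (pd k (fun y => u q.1 y j)) q.2)
    (Icc 0 T ×ˢ univ)
  cont_p : ContinuousOn (fun q : ℝ × V3 => p q.1 q.2) (Icc 0 T ×ˢ univ)
  cont_dp : ∀ i, ContinuousOn (fun q : ℝ × V3 => pd i (p q.1) q.2) (Icc 0 T ×ˢ univ)
  mean_p : ∀ t ∈ Icc 0 T, ∫ x in Icc (0 : V3) 1, p t x = 0
  momentum : ∀ t ∈ Icc 0 T, ∀ x j,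
    derivWithin (fun s => u s x j) (Icc 0 T) t + ∑ i, u t x i * pd i (fun y => u t y j) x
      = - pd j (p t) x + ν * ∑ i, pd i (pd i (fun y => u t y j)) x + f t x j
  div_free : ∀ t ∈ Icc 0 T, ∀ x, ∑ i, pd i (fun y => u t y i) x = 0
  initial : ∀ x, u 0 x = 0

/-- trajectories, auxiliary form -/
def IsTrajectoryO (u : ℝ → V3 → V3) (a : V3) (X : ℝ → V3) : Prop :=
  X 0 = a ∧ ∀ t, 0 ≤ t → HasDerivWithinAt X (u t (X t)) (Ici 0) t

lemma isTrajectory_iff (u : ℝ → V3 → V3) (a : V3) (X : ℝ → V3) :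
    IsTrajectory u a X ↔ IsTrajectoryO u a X := by
  unfold IsTrajectory IsTrajectoryO
  refine and_congr Iff.rfl (forall_congr' fun t => forall_congr' fun _ => ?_)
  rw [hasDerivWithinAt_pi]

lemma IsClassical.toO {ν T : ℝ} {f u : ℝ → V3 → V3} {p : ℝ → V3 → ℝ}
    (h : IsClassical ν T f u p) : IsClassicalO ν T f u p where
  torus_u := fun t ht => (h.torus t ht).1
  torus_p := fun t ht => (h.torus t ht).2
  space_u := by
    intro t ht
    rw [contDiff_pi]
    exact fun j => (h.space t ht j).1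
  space_p := fun t ht => (h.space t ht 0).2
  time_u := by
    intro t ht x
    rw [differentiableWithinAt_pi]
    exact fun j => h.time_u t ht x j
  cont_u := by
    rw [continuousOn_pi]
    exact fun j => h.cont_u j
  cont_ut := by
    have e : ContinuousOn (fun q : ℝ × V3 => (fun j => derivWithin (fun s => u s q.2 j)
        (Icc 0 T) q.1 : V3)) (Icc 0 T ×ˢ univ) := by
      rw [continuousOn_pi]
      exact fun j => h.cont_ut j
    refine e.congr ?_
    rintro ⟨t, x⟩ ⟨ht, _⟩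
    exact derivWithin_pi (fun j => h.time_u t ht x j)
  cont_du := fun i j => h.cont_du i j
  cont_ddu := fun i k j => h.cont_ddu i k j
  cont_p := h.cont_p
  cont_dp := fun i => h.cont_dp i
  mean_p := h.mean_p
  momentum := h.momentum
  div_free := h.div_free
  initial := h.initial

lemma IsClassicalO.toNew {ν T : ℝ} {f u : ℝ → V3 → V3} {p : ℝ → V3 → ℝ}
    (h : IsClassicalO ν T f u p) : IsClassical ν T f u p where
  torus := fun t ht => ⟨h.torus_u t ht, h.torus_p t ht⟩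
  space := fun t ht j => ⟨contDiff_pi.1 (h.space_u t ht) j, h.space_p t ht⟩
  time_u := fun t ht x j => differentiableWithinAt_pi.1 (h.time_u t ht x) j
  cont_u := fun j => continuousOn_pi.1 h.cont_u j
  cont_ut := by
    intro j
    have e := continuousOn_pi.1 h.cont_ut j
    refine e.congr ?_
    rintro ⟨t, x⟩ ⟨ht, _⟩
    have h1 := derivWithin_pi (fun j => differentiableWithinAt_pi.1 (h.time_u t ht x) j)
    exact (congrFun h1 j).symm
  cont_du := fun i j => h.cont_du i j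
  cont_ddu := fun i k j => h.cont_ddu i k j
  cont_p := h.cont_p
  cont_dp := fun i => h.cont_dp i
  mean_p := h.mean_p
  momentum := h.momentum
  div_free := h.div_free
  initial := h.initial

end Vale.Agent.P113
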