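import Vale.Agent.P113.Comp2

/-! The periodic smooth function which carries the weights of all words. -/

namespace Vale.Agent.P113

open Set Filter
open scoped ContDiff Topology

/-- the word with number `n` -/
def word (n : ℕ) : List ℕ := (Encodable.decode (α := List ℕ) n).getD []

lemma word_encode (w : List ℕ) : word (Encodable.encode w) = w := by
  simp [word]

lemma computable_word : Computable word := by
  unfold word
  exact Computable.option_getD Computable.decode (c_const [])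

/-- the `k`-th derivative of the series of bumps -/
noncomputable def G (M : Machine) (k : ℕ) (y : ℝ) : ℝ :=
  ∑' n : ℕ, (1 / 2 : ℝ) ^ n * wt M (word n) * Pe (phi k ((1 / 2) ^ (n + 1)) ((1 / 2) ^ n)) y

lemma half_pow_nonneg (n : ℕ) : (0:ℝ) ≤ (1 / 2 : ℝ) ^ n := by positivity

lemma half_pow_pos (n : ℕ) : (0:ℝ) < (1 / 2 : ℝ) ^ n := by positivity

lemma half_pow_le_one (n : ℕ) : (1 / 2 : ℝ) ^ n ≤ 1 := pow_le_one₀ (by norm_num) (by norm_num)

lemma exists_G_bound (k : ℕ) : ∃ C : ℝ, 0 ≤ C ∧ ∀ (M : Machine) (n : ℕ) (y : ℝ),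
    ‖(1 / 2 : ℝ) ^ n * wt M (word n) * Pe (phi k ((1 / 2) ^ (n + 1)) ((1 / 2) ^ n)) y‖
      ≤ C * (1 / 2 : ℝ) ^ n := by
  obtain ⟨C, hC0, hC⟩ := exists_phi_bound k
  refine ⟨C, hC0, fun M n y => ?_⟩
  have h1 := hC ((1 / 2) ^ (n + 1)) ((1 / 2) ^ n) (Int.fract y) (half_pow_nonneg _)
    (half_pow_le_one _) (half_pow_nonneg _) (half_pow_le_one _) (Int.fract_nonneg y)
    (Int.fract_lt_one y).le
  rw [norm_mul, norm_mul, Real.norm_of_nonneg (half_pow_nonneg n),
    Real.norm_of_nonneg (wt_nonneg _ _)]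
  have h2 : ‖Pe (phi k ((1 / 2) ^ (n + 1)) ((1 / 2) ^ n)) y‖ ≤ C := h1
  have h3 := wt_le_one M (word n)
  have h4 := wt_nonneg M (word n)
  have h5 : wt M (word n) * ‖Pe (phi k ((1 / 2) ^ (n + 1)) ((1 / 2) ^ n)) y‖ ≤ 1 * C :=
    mul_le_mul h3 h2 (norm_nonneg _) zero_le_one
  have h6 := mul_le_mul_of_nonneg_left h5 (half_pow_nonneg n)
  calc _ = (1 / 2 : ℝ) ^ n * (wt M (word n) *
        ‖Pe (phi k ((1 / 2) ^ (n + 1)) ((1 / 2) ^ n)) y‖) := by ring
    _ ≤ _ := h6
    _ = _ := by ring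

lemma summable_half' : Summable (fun n : ℕ => (1 / 2 : ℝ) ^ n) :=
  summable_geometric_of_lt_one (by norm_num) (by norm_num)

lemma summable_G (M : Machine) (k : ℕ) (y : ℝ) : Summable (fun n : ℕ =>
    (1 / 2 : ℝ) ^ n * wt M (word n) * Pe (phi k ((1 / 2) ^ (n + 1)) ((1 / 2) ^ n)) y) := by
  obtain ⟨C, hC0, hC⟩ := exists_G_bound k
  exact Summable.of_norm_bounded (summable_half'.mul_left C) (fun n => hC M n y)

lemma hasDerivAt_G (M : Machine) (k : ℕ) (y : ℝ) :
    HasDerivAt (G M k) (G M (k + 1) y) y := by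
  obtain ⟨C, hC0, hC⟩ := exists_G_bound (k + 1)
  exact hasDerivAt_tsum (summable_half'.mul_left C)
    (fun n y => (hasDerivAt_Pe_phi k (half_pow_nonneg _) (half_pow_le_one _) y).const_mul _)
    (fun n y => hC M n y) (summable_G M k 0) y

lemma contDiff_G (M : Machine) (k : ℕ) : ContDiff ℝ ∞ (G M k) :=
  tower_contDiff (hasDerivAt_G M) k

lemma G_add_int (M : Machine) (k : ℕ) (y : ℝ) (m : ℤ) : G M k (y + m) = G M k y := by
  unfold G
  simp_rw [Pe_add_int]

/-- only one bump is active on a dyadic interval -/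
lemma G_zero_eq (M : Machine) {m : ℕ} {y : ℝ} (h1 : (1 / 2 : ℝ) ^ (m + 1) < y)
    (h2 : y < (1 / 2 : ℝ) ^ m) :
    G M 0 y = (1 / 2 : ℝ) ^ m * wt M (word m) * phi 0 ((1 / 2) ^ (m + 1)) ((1 / 2) ^ m) y := by
  have hf : Int.fract y = y :=
    Int.fract_eq_self.2 ⟨(half_pow_nonneg _).trans h1.le, h2.trans_le (half_pow_le_one _)⟩
  unfold G
  rw [tsum_eq_single m]
  · rw [Pe, hf]
  · intro n hn
    rw [Pe, hf]
    rcases lt_or_gt_of_ne hn with h | h
    · rw [phi_of_le_left, mul_zero]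
      exact h2.le.trans (pow_le_pow_of_le_one (by norm_num) (by norm_num) (by omega))
    · rw [phi_of_ge_right, mul_zero]
      exact le_trans (pow_le_pow_of_le_one (by norm_num) (by norm_num) (by omega)) h1.le

/-! ### values at rational points -/

lemma theta_trunc (k p q D : ℕ) :
    θ k (((p : ℝ) - q) / (D + 1)) = θ k (((p - q : ℕ) : ℝ) / (D + 1)) := by
  rcases le_total q p with h | h
  · rw [Nat.cast_sub h]
  · rw [Nat.sub_eq_zero_of_le h]
    have h1 : (p : ℝ) ≤ q := by exact_mod_cast h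
    rw [θ_of_nonpos k (div_nonpos_of_nonpos_of_nonneg (by linarith) (by positivity)),
      θ_of_nonpos k (by simp)]

/-- the residue giving the fractional part -/
def res (q : ℕ × ℕ × ℕ) : ℕ := (q.1 + q.2.1 * q.2.2) % (q.2.2 + 1)

lemma fract_rat (q : ℕ × ℕ × ℕ) : Int.fract (rat q) = (res q : ℝ) / (q.2.2 + 1) := by
  have h1 : rat q = ((q.1 + q.2.1 * q.2.2 : ℕ) : ℝ) / ((q.2.2 + 1 : ℕ) : ℝ) - (q.2.1 : ℤ) := by
    unfold rat
    push_cast
    field_simp
    ring
  rw [h1, Int.fract_sub_intCast, Int.fract_div_natCast_eq_div_natCast_mod]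
  unfold res
  push_cast
  rfl

lemma res_lt (q : ℕ × ℕ × ℕ) : res q < q.2.2 + 1 := Nat.mod_lt _ (by omega)

section families

variable {α : Type*} [Primcodable α]

lemma c_res {q : α → ℕ × ℕ × ℕ} (hq : Computable q) : Computable (fun a => res (q a)) := by
  have f1 := Computable.fst.comp hq
  have f2 := Computable.fst.comp (Computable.snd.comp hq)
  have f3 := Computable.snd.comp (Computable.snd.comp hq)
  exact c_mod (c_add f1 (c_mul f2 f3)) (c_add f3 (c_const 1))

lemma CR_Pe_time {m : α → ℕ} {q : α → ℕ × ℕ × ℕ} (hm : Computable m) (hq : Computable q) :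
    CR (fun a => Pe (phi (m a) 0 1) (rat (q a))) := by
  have f3 := Computable.snd.comp (Computable.snd.comp hq)
  refine (CR.phi hm (c_res hq) f3 (c_sub (c_add f3 (c_const 1)) (c_res hq)) f3).of_eq
    (fun a => ?_)
  rw [Pe, fract_rat, phi]
  refine Finset.sum_congr rfl (fun j _ => ?_)
  congr 2
  · rw [sub_zero]
  · rw [← theta_trunc]
    congr 2
    have h : ((q a).2.2 : ℝ) + 1 ≠ 0 := by positivity
    push_cast
    field_simp

lemma CR_phi_time {m : α → ℕ} {q : α → ℕ × ℕ × ℕ} (hm : Computable m) (hq : Computable q) :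
    CR (fun a => if decide ((q a).1 < (q a).2.1 + (q a).2.2 + 1) = true then
      Pe (phi (m a) 0 1) (rat (q a)) else 0) := by
  have f1 := Computable.fst.comp hq
  have f2 := Computable.fst.comp (Computable.snd.comp hq)
  have f3 := Computable.snd.comp (Computable.snd.comp hq)
  exact CR.ite (c_lt f1 (c_add (c_add f2 f3) (c_const 1))) (CR_Pe_time hm hq) CR.zero

lemma rat_lt_one_iff (q : ℕ × ℕ × ℕ) : rat q < 1 ↔ q.1 < q.2.1 + q.2.2 + 1 := by
  unfold rat
  rw [div_lt_one (by positivity)]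
  constructor
  · intro h
    have : (q.1 : ℝ) < q.2.1 + q.2.2 + 1 := by linarith
    exact_mod_cast this
  · intro h
    have : (q.1 : ℝ) < q.2.1 + q.2.2 + 1 := by exact_mod_cast h
    linarith

lemma phi_time_eq (m : ℕ) (q : ℕ × ℕ × ℕ) (h0 : 0 ≤ rat q) :
    (if decide (q.1 < q.2.1 + q.2.2 + 1) = true then Pe (phi m 0 1) (rat q) else 0) =
      phi m 0 1 (rat q) := by
  by_cases h : q.1 < q.2.1 + q.2.2 + 1
  · simp only [h, decide_true, if_true]
    rw [Pe, Int.fract_eq_self.2 ⟨h0, (rat_lt_one_iff q).2 h⟩]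
  · simp only [h, decide_false]
    rw [if_neg (by simp)]
    rw [phi_of_ge_right]
    by_contra hcon
    exact h ((rat_lt_one_iff q).1 (not_le.1 hcon))

/-- the finite sum which gives `G` at a rational point -/
lemma G_rat (M : Machine) (k : ℕ) (q : ℕ × ℕ × ℕ) : G M k (rat q) =
    ∑ n ∈ Finset.range (q.2.2 + 1), (1 / 2 : ℝ) ^ n * wt M (word n) *
      ∑ j ∈ Finset.range (k + 1), (k.choose j : ℝ) *
        θ j (((res q * 2 ^ (n + 1) - (q.2.2 + 1) : ℕ) : ℝ) /
          (((q.2.2 + 1) * 2 ^ (n + 1) - 1 : ℕ) + 1)) *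
        ((-1) ^ (k - j) * θ (k - j) ((((q.2.2 + 1) - res q * 2 ^ n : ℕ) : ℝ) /
          (((q.2.2 + 1) * 2 ^ n - 1 : ℕ) + 1))) := by
  unfold G
  rw [tsum_eq_sum (s := Finset.range (q.2.2 + 1))]
  · refine Finset.sum_congr rfl (fun n _ => ?_)
    congr 1
    rw [Pe, fract_rat, phi]
    refine Finset.sum_congr rfl (fun j _ => ?_)
    have hC : ((q.2.2 : ℝ) + 1) ≠ 0 := by positivity
    have h2 : (2:ℝ) ^ n ≠ 0 := by positivity
    have e1 : ∀ m : ℕ, ((((q.2.2 + 1) * 2 ^ m - 1 : ℕ) : ℝ) + 1) = (q.2.2 + 1) * 2 ^ m := by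
      intro m
      have : 1 ≤ (q.2.2 + 1) * 2 ^ m := Nat.mul_pos (by omega) (by positivity)
      rw [Nat.cast_sub this]
      push_cast
      ring
    congr 2
    · rw [← theta_trunc, e1]
      congr 1
      push_cast
      rw [one_div, inv_pow]
      field_simp
    · rw [← theta_trunc, e1]
      congr 2
      push_cast
      rw [one_div, inv_pow]
      field_simp
  · intro n hn
    rw [Finset.mem_range, not_lt] at hn
    rw [Pe, fract_rat]
    rcases Nat.eq_zero_or_pos (res q) with h | h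
    · rw [h, phi_of_le_left, mul_zero]
      simp only [Nat.cast_zero, zero_div]
      exact half_pow_nonneg _
    · rw [phi_of_ge_right, mul_zero]
      have h1 : (1:ℝ) ≤ res q := by exact_mod_cast h
      have h2 : ((q.2.2 : ℝ) + 1) ≤ 2 ^ n := by
        have h3 : q.2.2 + 1 ≤ 2 ^ n := hn.trans Nat.lt_two_pow_self.le
        exact_mod_cast h3
      rw [one_div, inv_pow, inv_eq_one_div, div_le_div_iff₀ (by positivity) (by positivity)]
      nlinarith

lemma CR_G {M : α → Machine} {k : α → ℕ} {q : α → ℕ × ℕ × ℕ} (hM : Computable M)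
    (hk : Computable k) (hq : Computable q) : CR (fun a => G (M a) (k a) (rat (q a))) := by
  have f3 : Computable (fun a => (q a).2.2) := Computable.snd.comp (Computable.snd.comp hq)
  have key : CR (fun p : α × ℕ => (1 / 2 : ℝ) ^ p.2 * wt (M p.1) (word p.2) *
      ∑ j ∈ Finset.range (k p.1 + 1), ((k p.1).choose j : ℝ) *
        θ j (((res (q p.1) * 2 ^ (p.2 + 1) - ((q p.1).2.2 + 1) : ℕ) : ℝ) /
          ((((q p.1).2.2 + 1) * 2 ^ (p.2 + 1) - 1 : ℕ) + 1)) *
        ((-1) ^ (k p.1 - j) * θ (k p.1 - j) (((((q p.1).2.2 + 1) - res (q p.1) * 2 ^ p.2 : ℕ) : ℝ) /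
          ((((q p.1).2.2 + 1) * 2 ^ p.2 - 1 : ℕ) + 1)))) := by
    have f : ∀ {β : Type} [Primcodable β] {g : α → β}, Computable g →
        Computable (fun p : α × ℕ => g p.1) := fun h => h.comp Computable.fst
    have n1 : Computable (fun p : α × ℕ => p.2) := Computable.snd
    have n2 : Computable (fun p : α × ℕ => p.2 + 1) := c_add n1 (c_const 1)
    have e1 : CR (fun p : α × ℕ => (1 / 2 : ℝ) ^ p.2) := by
      refine (CR.fracPow (A := fun _ => 1) (D := fun _ => 1) (c_const 1) (c_const 1) n1).of_eq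
        (fun q => ?_)
      norm_num
    have e2 : CR (fun p : α × ℕ => wt (M p.1) (word p.2)) := by
      have h1 : Computable (fun p : α × ℕ => (M p.1, word p.2)) :=
        (f hM).pair (computable_word.comp n1)
      have h2 := CR_wt.comp h1
      exact h2
    have C1 : Computable (fun p : α × ℕ => (q p.1).2.2 + 1) := c_add (f f3) (c_const 1)
    have R : Computable (fun p : α × ℕ => res (q p.1)) := f (c_res hq)
    have P0 : Computable (fun p : α × ℕ => 2 ^ p.2) := c_pow (c_const 2) n1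
    have P1 : Computable (fun p : α × ℕ => 2 ^ (p.2 + 1)) := c_pow (c_const 2) n2
    exact (e1.mul e2).mul (CR.phi (f hk) (c_sub (c_mul R P1) C1) (c_sub (c_mul C1 P1) (c_const 1))
      (c_sub C1 (c_mul R P0)) (c_sub (c_mul C1 P0) (c_const 1)))
  have h := CR.sum (k := fun a => (q a).2.2 + 1) (c_add f3 (c_const 1)) key
  exact h.of_eq (fun a => (G_rat (M a) (k a) (q a)).symm)

end families

end Vale.Agent.P113
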